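import Vale.Agent.P224.S7.Z7.Dat

/-!
Certificate data in dimension seven: the free columns.
-/

namespace Vale.Agent.P224.S7.Z7

open Vale.Agent.P224.POS Vale.Agent.P224.S7
open Vale.Agent.P224.SP (ev Q4)

noncomputable section

/-- the common denominator of the polynomial columns -/
def c0 : ℕ := 34527510528

/-- factor of the approximations -/
def kB : ℕ := 1

/-- factor of the polynomial columns -/
def kF : ℕ := 1

/-- free value column 0 -/
def vf0 : VFz := ⟨⟨4, 0, 0, 0, 0⟩, [8792437912000, -42251672139936, 80406157512480, -77157021990080, 38661240698160, -9159015433728, 678883896976],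
    .c 0,
    .c 0,
    .c 0,
    .c 0⟩

/-- free value column 1 -/
def vf1 : VFz := ⟨⟨4, 0, 0, 0, 1⟩, [-17584875824000, 84503344279872, -160812315024960, 154314043980160, -77322481396320, 18318030867456, -1357767793952],
    .c 0,
    .c 0,
    .c 0,
    .c 0⟩

/-- free value column 2 -/
def vf2 : VFz := ⟨⟨4, 0, 0, 0, 2⟩, [8792437912000, -42251672139936, 80406157512480, -77157021990080, 38661240698160, -9159015433728, 678883896976],
    .c 0,
    .mul (.c (-1)) (.mul (.mul (.add (.mul (.sub (.c (-6)) (.mul (.c 2) (.a))) (.P)) (.mul (.mul (.mul (.c 8) (.a)) (.add (.c 6) (.a))) (.s))) (.pow (.P) 3)) (.c 2)),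
    .c 0,
    .mul (.c (-1)) (.mul (.mul (.mul (.mul (.c 2) (.a)) (.add (.c 6) (.a))) (.pow (.P) 4)) (.c 2))⟩

/-- free value column 3 -/
def vf3 : VFz := ⟨⟨4, 0, 1, 0, 0⟩, [-17389950589872, 81643170315456, -133909364406480, 86167946795200, -8164535913600, -10805760849984, 2400479378992],
    .c 0,
    .c 0,
    .c 0,
    .c 0⟩

/-- free value column 4 -/
def vf4 : VFz := ⟨⟨4, 0, 1, 0, 1⟩, [52364777003744, -247789684910784, 428631043837920, -326649937570560, 93651553223520, 3293490832512, -3443190964032],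
    .c 0,
    .c 0,
    .c 0,
    .c 0⟩

/-- free value column 5 -/
def vf5 : VFz := ⟨⟨4, 0, 1, 0, 2⟩, [-34974826413872, 166146514595328, -294721679431440, 240481990775360, -85487017309920, 7512270017472, 1042711585040],
    .c 0,
    .mul (.c (-1)) (.mul (.mul (.add (.mul (.sub (.c (-6)) (.mul (.c 2) (.a))) (.P)) (.mul (.mul (.mul (.c 8) (.a)) (.add (.c 6) (.a))) (.s))) (.pow (.P) 3)) (.mul (.c 2) (.t))),
    .c 0,
    .mul (.c (-1)) (.mul (.mul (.mul (.mul (.c 2) (.a)) (.add (.c 6) (.a))) (.pow (.P) 4)) (.mul (.c 2) (.t)))⟩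

/-- free value column 6 -/
def vf6 : VFz := ⟨⟨4, 0, 1, 1, 0⟩, [-30578607457872, 145020678525360, -254518600675200, 201903479780320, -66156396960840, 2932762300608, 1382153533528],
    .mul (.c (-1)) (.mul (.mul (.add (.mul (.sub (.c (-6)) (.mul (.c 2) (.a))) (.P)) (.mul (.mul (.mul (.c 8) (.a)) (.add (.c 6) (.a))) (.s))) (.pow (.P) 3)) (.c (-2))),
    .c 0,
    .mul (.c (-1)) (.mul (.mul (.mul (.mul (.c 2) (.a)) (.add (.c 6) (.a))) (.pow (.P) 4)) (.c (-2))),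
    .c 0⟩

/-- free value column 7 -/
def vf7 : VFz := ⟨⟨4, 0, 1, 1, 1⟩, [34974826413872, -166146514595328, 294721679431440, -240481990775360, 85487017309920, -7512270017472, -1042711585040],
    .mul (.c (-1)) (.mul (.mul (.add (.mul (.sub (.c (-6)) (.mul (.c 2) (.a))) (.P)) (.mul (.mul (.mul (.c 8) (.a)) (.add (.c 6) (.a))) (.s))) (.pow (.P) 3)) (.mul (.c (-2)) (.d))),
    .c 0,
    .mul (.c (-1)) (.mul (.mul (.mul (.mul (.c 2) (.a)) (.add (.c 6) (.a))) (.pow (.P) 4)) (.mul (.c (-2)) (.d))),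
    .c 0⟩

/-- free value column 8 -/
def vf8 : VFz := ⟨⟨4, 0, 2, 0, 0⟩, [-30578607457872, 145020678525360, -254518600675200, 201903479780320, -66156396960840, 2932762300608, 1382153533528],
    .mul (.c (-1)) (.mul (.mul (.add (.mul (.sub (.c (-6)) (.mul (.c 2) (.a))) (.P)) (.mul (.mul (.mul (.c 8) (.a)) (.add (.c 6) (.a))) (.s))) (.pow (.P) 3)) (.c 2)),
    .c 0,
    .mul (.c (-1)) (.mul (.mul (.mul (.mul (.c 2) (.a)) (.add (.c 6) (.a))) (.pow (.P) 4)) (.c 2)),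
    .c 0⟩

/-- free value column 9 -/
def vf9 : VFz := ⟨⟨4, 0, 2, 0, 1⟩, [34974826413872, -166146514595328, 294721679431440, -240481990775360, 85487017309920, -7512270017472, -1042711585040],
    .mul (.c (-1)) (.mul (.mul (.add (.mul (.sub (.c (-6)) (.mul (.c 2) (.a))) (.P)) (.mul (.mul (.mul (.c 8) (.a)) (.add (.c 6) (.a))) (.s))) (.pow (.P) 3)) (.mul (.c 2) (.d))),
    .c 0,
    .mul (.c (-1)) (.mul (.mul (.mul (.mul (.c 2) (.a)) (.add (.c 6) (.a))) (.pow (.P) 4)) (.mul (.c 2) (.d))),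
    .c 0⟩

/-- free value column 10 -/
def vf10 : VFz := ⟨⟨4, 0, 2, 1, 0⟩, [-26231119810404, 124609885946496, -221041259573580, 180361493081520, -64115262982440, 5634202513104, 782033688780],
    .mul (.c (-1)) (.mul (.mul (.add (.mul (.sub (.c (-6)) (.mul (.c 2) (.a))) (.P)) (.mul (.mul (.mul (.c 8) (.a)) (.add (.c 6) (.a))) (.s))) (.pow (.P) 3)) (.mul (.c (-2)) (.t))),
    .c 0,
    .mul (.c (-1)) (.mul (.mul (.mul (.mul (.c 2) (.a)) (.add (.c 6) (.a))) (.pow (.P) 4)) (.mul (.c (-2)) (.t))),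
    .c 0⟩

/-- free value column 11 -/
def vf11 : VFz := ⟨⟨4, 0, 3, 0, 0⟩, [-8743706603468, 41536628648832, -73680419857860, 60120497693840, -21371754327480, 1878067504368, 260677896260],
    .mul (.c (-1)) (.mul (.mul (.add (.mul (.sub (.c (-6)) (.mul (.c 2) (.a))) (.P)) (.mul (.mul (.mul (.c 8) (.a)) (.add (.c 6) (.a))) (.s))) (.pow (.P) 3)) (.mul (.c 6) (.t))),
    .c 0,
    .mul (.c (-1)) (.mul (.mul (.mul (.mul (.c 2) (.a)) (.add (.c 6) (.a))) (.pow (.P) 4)) (.mul (.c 6) (.t))),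
    .c 0⟩

/-- free value column 12 -/
def vf12 : VFz := ⟨⟨4, 1, 0, 0, 0⟩, [-17579810553600, 79602332798592, -140523481594800, 122906738893120, -54977287179120, 10950222895968, -369034859856],
    .c 0,
    .c 0,
    .c 0,
    .c 0⟩

/-- free value column 13 -/
def vf13 : VFz := ⟨⟨4, 1, 0, 0, 1⟩, [17574745283200, -74701321317312, 120234648164640, -91499433806080, 32632092961920, -3582414924480, -619698074240],
    .c 0,
    .c 0,
    .c 0,
    .c 0⟩

/-- free value column 14 -/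
def vf14 : VFz := ⟨⟨4, 1, 0, 0, 2⟩, [5065270400, -4901011481280, 20288833430160, -31407305087040, 22345194217200, -7367807971488, 988732934096],
    .c 0,
    .mul (.c (-1)) (.mul (.mul (.mul (.add (.mul (.sub (.c (-6)) (.mul (.c 2) (.a))) (.P)) (.mul (.mul (.mul (.c 8) (.a)) (.add (.c 6) (.a))) (.s))) (.w)) (.pow (.P) 3)) (.c 2)),
    .c 0,
    .mul (.c (-1)) (.mul (.mul (.mul (.mul (.mul (.c 2) (.a)) (.add (.c 6) (.a))) (.w)) (.pow (.P) 4)) (.c 2))⟩

/-- free value column 15 -/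
def vf15 : VFz := ⟨⟨4, 1, 1, 0, 0⟩, [52374907544544, -237768674850912, 386381438871120, -270536595451200, 71266276648320, -1852154865600, 96162043728],
    .c 0,
    .c 0,
    .c 0,
    .c 0⟩

/-- free value column 16 -/
def vf16 : VFz := ⟨⟨4, 1, 1, 0, 1⟩, [-69959783368544, 302448986108352, -464366482068960, 305922687137920, -81513093035040, 10580215488192, -3015816977248],
    .c 0,
    .c 0,
    .c 0,
    .c 0⟩

/-- free value column 17 -/
def vf17 : VFz := ⟨⟨4, 1, 1, 0, 2⟩, [0, 19823033022432, -82827271827120, 118927952293440, -67075665009600, 9589970244864, 1561887139568],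
    .c 0,
    .mul (.c (-1)) (.mul (.mul (.mul (.add (.mul (.sub (.c (-6)) (.mul (.c 2) (.a))) (.P)) (.mul (.mul (.mul (.c 8) (.a)) (.add (.c 6) (.a))) (.s))) (.w)) (.pow (.P) 3)) (.mul (.c 2) (.t))),
    .c 0,
    .mul (.c (-1)) (.mul (.mul (.mul (.mul (.mul (.c 2) (.a)) (.add (.c 6) (.a))) (.w)) (.pow (.P) 4)) (.mul (.c 2) (.t)))⟩

/-- free value column 18 -/
def vf18 : VFz := ⟨⟨4, 1, 1, 1, 0⟩, [34977359049072, -148773987313536, 222038824319400, -137257691025440, 29583949408920, -1606203758352, 1013542021576],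
    .mul (.c (-1)) (.mul (.mul (.mul (.add (.mul (.sub (.c (-6)) (.mul (.c 2) (.a))) (.P)) (.mul (.mul (.mul (.c 8) (.a)) (.add (.c 6) (.a))) (.s))) (.w)) (.pow (.P) 3)) (.c (-2))),
    .c 0,
    .mul (.c (-1)) (.mul (.mul (.mul (.mul (.mul (.c 2) (.a)) (.add (.c 6) (.a))) (.w)) (.pow (.P) 4)) (.c (-2))),
    .c 0⟩

/-- free value column 19 -/
def vf19 : VFz := ⟨⟨4, 1, 1, 1, 1⟩, [0, -19823033022432, 82827271827120, -118927952293440, 67075665009600, -9589970244864, -1561887139568],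
    .mul (.c (-1)) (.mul (.mul (.mul (.add (.mul (.sub (.c (-6)) (.mul (.c 2) (.a))) (.P)) (.mul (.mul (.mul (.c 8) (.a)) (.add (.c 6) (.a))) (.s))) (.w)) (.pow (.P) 3)) (.mul (.c (-2)) (.d))),
    .c 0,
    .mul (.c (-1)) (.mul (.mul (.mul (.mul (.mul (.c 2) (.a)) (.add (.c 6) (.a))) (.w)) (.pow (.P) 4)) (.mul (.c (-2)) (.d))),
    .c 0⟩

/-- free value column 20 -/
def vf20 : VFz := ⟨⟨4, 1, 2, 0, 0⟩, [34977359049072, -148773987313536, 222038824319400, -137257691025440, 29583949408920, -1606203758352, 1013542021576],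
    .mul (.c (-1)) (.mul (.mul (.mul (.add (.mul (.sub (.c (-6)) (.mul (.c 2) (.a))) (.P)) (.mul (.mul (.mul (.c 8) (.a)) (.add (.c 6) (.a))) (.s))) (.w)) (.pow (.P) 3)) (.c 2)),
    .c 0,
    .mul (.c (-1)) (.mul (.mul (.mul (.mul (.mul (.c 2) (.a)) (.add (.c 6) (.a))) (.w)) (.pow (.P) 4)) (.c 2)),
    .c 0⟩

/-- free value column 21 -/
def vf21 : VFz := ⟨⟨4, 1, 2, 0, 1⟩, [0, -19823033022432, 82827271827120, -118927952293440, 67075665009600, -9589970244864, -1561887139568],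
    .mul (.c (-1)) (.mul (.mul (.mul (.add (.mul (.sub (.c (-6)) (.mul (.c 2) (.a))) (.P)) (.mul (.mul (.mul (.c 8) (.a)) (.add (.c 6) (.a))) (.s))) (.w)) (.pow (.P) 3)) (.mul (.c 2) (.d))),
    .c 0,
    .mul (.c (-1)) (.mul (.mul (.mul (.mul (.mul (.c 2) (.a)) (.add (.c 6) (.a))) (.w)) (.pow (.P) 4)) (.mul (.c 2) (.d))),
    .c 0⟩

/-- free value column 22 -/
def vf22 : VFz := ⟨⟨4, 1, 2, 1, 0⟩, [0, 14867274766824, -62120453870340, 89195964220080, -50306748757200, 7192477683648, 1171415354676],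
    .mul (.c (-1)) (.mul (.mul (.mul (.add (.mul (.sub (.c (-6)) (.mul (.c 2) (.a))) (.P)) (.mul (.mul (.mul (.c 8) (.a)) (.add (.c 6) (.a))) (.s))) (.w)) (.pow (.P) 3)) (.mul (.c (-2)) (.t))),
    .c 0,
    .mul (.c (-1)) (.mul (.mul (.mul (.mul (.mul (.c 2) (.a)) (.add (.c 6) (.a))) (.w)) (.pow (.P) 4)) (.mul (.c (-2)) (.t))),
    .c 0⟩

/-- free value column 23 -/
def vf23 : VFz := ⟨⟨4, 1, 3, 0, 0⟩, [0, 4955758255608, -20706817956780, 29731988073360, -16768916252400, 2397492561216, 390471784892],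
    .mul (.c (-1)) (.mul (.mul (.mul (.add (.mul (.sub (.c (-6)) (.mul (.c 2) (.a))) (.P)) (.mul (.mul (.mul (.c 8) (.a)) (.add (.c 6) (.a))) (.s))) (.w)) (.pow (.P) 3)) (.mul (.c 6) (.t))),
    .c 0,
    .mul (.c (-1)) (.mul (.mul (.mul (.mul (.mul (.c 2) (.a)) (.add (.c 6) (.a))) (.w)) (.pow (.P) 4)) (.mul (.c 6) (.t))),
    .c 0⟩

/-- free value column 24 -/
def vf24 : VFz := ⟨⟨4, 2, 0, 0, 0⟩, [8782307371200, -32429327575296, 41863245350640, -22146268432640, 3718182628320, 1318209687168, -1038735006544],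
    .c 0,
    .c 0,
    .c 0,
    .c 0⟩

/-- free value column 25 -/
def vf25 : VFz := ⟨⟨4, 2, 0, 0, 1⟩, [10130540800, -9842666166720, 36508157463360, -47206896940800, 25195727705280, -6218834298816, 1457771938848],
    .c 0,
    .c 0,
    .c 0,
    .c 0⟩

/-- free value column 26 -/
def vf26 : VFz := ⟨⟨4, 2, 0, 0, 2⟩, [0, 20321602080, 2034754698480, -7803856616640, 9747330364560, -4258390822080, 259846964672],
    .c 0,
    .mul (.c (-1)) (.mul (.mul (.mul (.add (.mul (.sub (.c (-6)) (.mul (.c 2) (.a))) (.P)) (.mul (.mul (.mul (.c 8) (.a)) (.add (.c 6) (.a))) (.s))) (.pow (.w) 2)) (.pow (.P) 3)) (.c 2)),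
    .c 0,
    .mul (.c (-1)) (.mul (.mul (.mul (.mul (.mul (.c 2) (.a)) (.add (.c 6) (.a))) (.pow (.w) 2)) (.pow (.P) 4)) (.c 2))⟩

/-- free value column 27 -/
def vf27 : VFz := ⟨⟨4, 2, 1, 0, 0⟩, [-34984956954672, 136338814241088, -174289740119280, 84369781653760, -20456059713840, 13656769415136, -4537802256688],
    .c 0,
    .c 0,
    .c 0,
    .c 0⟩

/-- free value column 28 -/
def vf28 : VFz := ⟨⟨4, 2, 1, 0, 1⟩, [0, 39614023792896, -152295159293760, 184390020771200, -65796701312640, -10514489043264, 4602015597280],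
    .c 0,
    .c 0,
    .c 0,
    .c 0⟩

/-- free value column 29 -/
def vf29 : VFz := ⟨⟨4, 2, 1, 0, 2⟩, [0, -4300476096, -8714446878720, 34536798524480, -43924644717840, 19105605588576, -998967623744],
    .c 0,
    .mul (.c (-1)) (.mul (.mul (.mul (.add (.mul (.sub (.c (-6)) (.mul (.c 2) (.a))) (.P)) (.mul (.mul (.mul (.c 8) (.a)) (.add (.c 6) (.a))) (.s))) (.pow (.w) 2)) (.pow (.P) 3)) (.mul (.c 2) (.t))),
    .c 0,
    .mul (.c (-1)) (.mul (.mul (.mul (.mul (.mul (.c 2) (.a)) (.add (.c 6) (.a))) (.pow (.w) 2)) (.pow (.P) 4)) (.mul (.c 2) (.t)))⟩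

/-- free value column 30 -/
def vf30 : VFz := ⟨⟨4, 2, 1, 1, 0⟩, [0, -19817172697488, 75130202297640, -88293082077280, 28024685474040, 7386439932672, -2430931280976],
    .mul (.c (-1)) (.mul (.mul (.mul (.add (.mul (.sub (.c (-6)) (.mul (.c 2) (.a))) (.P)) (.mul (.mul (.mul (.c 8) (.a)) (.add (.c 6) (.a))) (.s))) (.pow (.w) 2)) (.pow (.P) 3)) (.c (-2))),
    .c 0,
    .mul (.c (-1)) (.mul (.mul (.mul (.mul (.mul (.c 2) (.a)) (.add (.c 6) (.a))) (.pow (.w) 2)) (.pow (.P) 4)) (.c (-2))),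
    .c 0⟩

/-- free value column 31 -/
def vf31 : VFz := ⟨⟨4, 2, 1, 1, 1⟩, [0, 4300476096, 8714446878720, -34536798524480, 43924644717840, -19105605588576, 998967623744],
    .mul (.c (-1)) (.mul (.mul (.mul (.add (.mul (.sub (.c (-6)) (.mul (.c 2) (.a))) (.P)) (.mul (.mul (.mul (.c 8) (.a)) (.add (.c 6) (.a))) (.s))) (.pow (.w) 2)) (.pow (.P) 3)) (.mul (.c (-2)) (.d))),
    .c 0,
    .mul (.c (-1)) (.mul (.mul (.mul (.mul (.mul (.c 2) (.a)) (.add (.c 6) (.a))) (.pow (.w) 2)) (.pow (.P) 4)) (.mul (.c (-2)) (.d))),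
    .c 0⟩

/-- free value column 32 -/
def vf32 : VFz := ⟨⟨4, 2, 2, 0, 0⟩, [0, -19817172697488, 75130202297640, -88293082077280, 28024685474040, 7386439932672, -2430931280976],
    .mul (.c (-1)) (.mul (.mul (.mul (.add (.mul (.sub (.c (-6)) (.mul (.c 2) (.a))) (.P)) (.mul (.mul (.mul (.c 8) (.a)) (.add (.c 6) (.a))) (.s))) (.pow (.w) 2)) (.pow (.P) 3)) (.c 2)),
    .c 0,
    .mul (.c (-1)) (.mul (.mul (.mul (.mul (.mul (.c 2) (.a)) (.add (.c 6) (.a))) (.pow (.w) 2)) (.pow (.P) 4)) (.c 2)),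
    .c 0⟩

/-- free value column 33 -/
def vf33 : VFz := ⟨⟨4, 2, 2, 0, 1⟩, [0, 4300476096, 8714446878720, -34536798524480, 43924644717840, -19105605588576, 998967623744],
    .mul (.c (-1)) (.mul (.mul (.mul (.add (.mul (.sub (.c (-6)) (.mul (.c 2) (.a))) (.P)) (.mul (.mul (.mul (.c 8) (.a)) (.add (.c 6) (.a))) (.s))) (.pow (.w) 2)) (.pow (.P) 3)) (.mul (.c 2) (.d))),
    .c 0,
    .mul (.c (-1)) (.mul (.mul (.mul (.mul (.mul (.c 2) (.a)) (.add (.c 6) (.a))) (.pow (.w) 2)) (.pow (.P) 4)) (.mul (.c 2) (.d))),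
    .c 0⟩

/-- free value column 34 -/
def vf34 : VFz := ⟨⟨4, 2, 2, 1, 0⟩, [0, -3225357072, -6535835159040, 25902598893360, -32943483538380, 14329204191432, -749225717808],
    .mul (.c (-1)) (.mul (.mul (.mul (.add (.mul (.sub (.c (-6)) (.mul (.c 2) (.a))) (.P)) (.mul (.mul (.mul (.c 8) (.a)) (.add (.c 6) (.a))) (.s))) (.pow (.w) 2)) (.pow (.P) 3)) (.mul (.c (-2)) (.t))),
    .c 0,
    .mul (.c (-1)) (.mul (.mul (.mul (.mul (.mul (.c 2) (.a)) (.add (.c 6) (.a))) (.pow (.w) 2)) (.pow (.P) 4)) (.mul (.c (-2)) (.t))),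
    .c 0⟩

/-- free value column 35 -/
def vf35 : VFz := ⟨⟨4, 2, 3, 0, 0⟩, [0, -1075119024, -2178611719680, 8634199631120, -10981161179460, 4776401397144, -249741905936],
    .mul (.c (-1)) (.mul (.mul (.mul (.add (.mul (.sub (.c (-6)) (.mul (.c 2) (.a))) (.P)) (.mul (.mul (.mul (.c 8) (.a)) (.add (.c 6) (.a))) (.s))) (.pow (.w) 2)) (.pow (.P) 3)) (.mul (.c 6) (.t))),
    .c 0,
    .mul (.c (-1)) (.mul (.mul (.mul (.mul (.mul (.c 2) (.a)) (.add (.c 6) (.a))) (.pow (.w) 2)) (.pow (.P) 4)) (.mul (.c 6) (.t))),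
    .c 0⟩

/-- free value column 36 -/
def vf36 : VFz := ⟨⟨4, 3, 0, 0, 0⟩, [5065270400, -4941838513920, 16246237572240, -16426368407680, 5107301842080, -1590930192192, 1552227141984],
    .c 0,
    .c 0,
    .c 0,
    .c 0⟩

/-- free value column 37 -/
def vf37 : VFz := ⟨⟨4, 3, 0, 0, 1⟩, [0, 41010861120, 4015682318880, -14354160125440, 14981124021120, -3036973914432, -1646682345120],
    .c 0,
    .c 0,
    .c 0,
    .c 0⟩

/-- free value column 38 -/
def vf38 : VFz := ⟨⟨4, 3, 0, 0, 2⟩, [0, -183828480, 26913539040, -626776553920, 2256768354000, -2739903864864, 1083188137232],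
    .c 0,
    .mul (.c (-1)) (.mul (.mul (.mul (.add (.mul (.sub (.c (-6)) (.mul (.c 2) (.a))) (.P)) (.mul (.mul (.mul (.c 8) (.a)) (.add (.c 6) (.a))) (.s))) (.pow (.w) 3)) (.pow (.P) 3)) (.c 2)),
    .c 0,
    .mul (.c (-1)) (.mul (.mul (.mul (.mul (.mul (.c 2) (.a)) (.add (.c 6) (.a))) (.pow (.w) 3)) (.pow (.P) 4)) (.c 2))⟩

/-- free value column 39 -/
def vf39 : VFz := ⟨⟨4, 3, 1, 0, 0⟩, [0, 19790122693536, -69430194805920, 66273439242240, -2415191204880, -15293866303584, 1075543779008],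
    .c 0,
    .c 0,
    .c 0,
    .c 0⟩

/-- free value column 40 -/
def vf40 : VFz := ⟨⟨4, 3, 1, 0, 1⟩, [0, -7232455296, -17450452000800, 66197302412160, -75947442924000, 23110217478336, 4097610384384],
    .c 0,
    .c 0,
    .c 0,
    .c 0⟩

/-- free value column 41 -/
def vf41 : VFz := ⟨⟨4, 3, 1, 0, 2⟩, [0, -500419968, -16134417360, 2064923872320, -8207691609840, 10290400714272, -4130960953168],
    .c 0,
    .mul (.c (-1)) (.mul (.mul (.mul (.add (.mul (.sub (.c (-6)) (.mul (.c 2) (.a))) (.P)) (.mul (.mul (.mul (.c 8) (.a)) (.add (.c 6) (.a))) (.s))) (.pow (.w) 3)) (.pow (.P) 3)) (.mul (.c 2) (.t))),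
    .c 0,
    .mul (.c (-1)) (.mul (.mul (.mul (.mul (.mul (.c 2) (.a)) (.add (.c 6) (.a))) (.pow (.w) 3)) (.pow (.P) 4)) (.mul (.c 2) (.t)))⟩

/-- free value column 42 -/
def vf42 : VFz := ⟨⟨4, 3, 1, 1, 0⟩, [0, 3708141888, 8711769230880, -32785262929120, 36845337285000, -10185156806736, -2590399260808],
    .mul (.c (-1)) (.mul (.mul (.mul (.add (.mul (.sub (.c (-6)) (.mul (.c 2) (.a))) (.P)) (.mul (.mul (.mul (.c 8) (.a)) (.add (.c 6) (.a))) (.s))) (.pow (.w) 3)) (.pow (.P) 3)) (.c (-2))),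
    .c 0,
    .mul (.c (-1)) (.mul (.mul (.mul (.mul (.mul (.c 2) (.a)) (.add (.c 6) (.a))) (.pow (.w) 3)) (.pow (.P) 4)) (.c (-2))),
    .c 0⟩

/-- free value column 43 -/
def vf43 : VFz := ⟨⟨4, 3, 1, 1, 1⟩, [0, 500419968, 16134417360, -2064923872320, 8207691609840, -10290400714272, 4130960953168],
    .mul (.c (-1)) (.mul (.mul (.mul (.add (.mul (.sub (.c (-6)) (.mul (.c 2) (.a))) (.P)) (.mul (.mul (.mul (.c 8) (.a)) (.add (.c 6) (.a))) (.s))) (.pow (.w) 3)) (.pow (.P) 3)) (.mul (.c (-2)) (.d))),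
    .c 0,
    .mul (.c (-1)) (.mul (.mul (.mul (.mul (.mul (.c 2) (.a)) (.add (.c 6) (.a))) (.pow (.w) 3)) (.pow (.P) 4)) (.mul (.c (-2)) (.d))),
    .c 0⟩

/-- free value column 44 -/
def vf44 : VFz := ⟨⟨4, 3, 2, 0, 0⟩, [0, 3708141888, 8711769230880, -32785262929120, 36845337285000, -10185156806736, -2590399260808],
    .mul (.c (-1)) (.mul (.mul (.mul (.add (.mul (.sub (.c (-6)) (.mul (.c 2) (.a))) (.P)) (.mul (.mul (.mul (.c 8) (.a)) (.add (.c 6) (.a))) (.s))) (.pow (.w) 3)) (.pow (.P) 3)) (.c 2)),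
    .c 0,
    .mul (.c (-1)) (.mul (.mul (.mul (.mul (.mul (.c 2) (.a)) (.add (.c 6) (.a))) (.pow (.w) 3)) (.pow (.P) 4)) (.c 2)),
    .c 0⟩

/-- free value column 45 -/
def vf45 : VFz := ⟨⟨4, 3, 2, 0, 1⟩, [0, 500419968, 16134417360, -2064923872320, 8207691609840, -10290400714272, 4130960953168],
    .mul (.c (-1)) (.mul (.mul (.mul (.add (.mul (.sub (.c (-6)) (.mul (.c 2) (.a))) (.P)) (.mul (.mul (.mul (.c 8) (.a)) (.add (.c 6) (.a))) (.s))) (.pow (.w) 3)) (.pow (.P) 3)) (.mul (.c 2) (.d))),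
    .c 0,
    .mul (.c (-1)) (.mul (.mul (.mul (.mul (.mul (.c 2) (.a)) (.add (.c 6) (.a))) (.pow (.w) 3)) (.pow (.P) 4)) (.mul (.c 2) (.d))),
    .c 0⟩

/-- free value column 46 -/
def vf46 : VFz := ⟨⟨4, 3, 2, 1, 0⟩, [0, -375314976, -12100813020, 1548692904240, -6155768707380, 7717800535704, -3098220714876],
    .mul (.c (-1)) (.mul (.mul (.mul (.add (.mul (.sub (.c (-6)) (.mul (.c 2) (.a))) (.P)) (.mul (.mul (.mul (.c 8) (.a)) (.add (.c 6) (.a))) (.s))) (.pow (.w) 3)) (.pow (.P) 3)) (.mul (.c (-2)) (.t))),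
    .c 0,
    .mul (.c (-1)) (.mul (.mul (.mul (.mul (.mul (.c 2) (.a)) (.add (.c 6) (.a))) (.pow (.w) 3)) (.pow (.P) 4)) (.mul (.c (-2)) (.t))),
    .c 0⟩

/-- free value column 47 -/
def vf47 : VFz := ⟨⟨4, 3, 3, 0, 0⟩, [0, -125104992, -4033604340, 516230968080, -2051922902460, 2572600178568, -1032740238292],
    .mul (.c (-1)) (.mul (.mul (.mul (.add (.mul (.sub (.c (-6)) (.mul (.c 2) (.a))) (.P)) (.mul (.mul (.mul (.c 8) (.a)) (.add (.c 6) (.a))) (.s))) (.pow (.w) 3)) (.pow (.P) 3)) (.mul (.c 6) (.t))),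
    .c 0,
    .mul (.c (-1)) (.mul (.mul (.mul (.mul (.mul (.c 2) (.a)) (.add (.c 6) (.a))) (.pow (.w) 3)) (.pow (.P) 4)) (.mul (.c 6) (.t))),
    .c 0⟩

/-- free value column 48 -/
def vf48 : VFz := ⟨⟨4, 4, 0, 0, 0⟩, [0, 20689259040, 1980927620400, -6550303508800, 5233793656560, 1221416907648, -1906529309792],
    .c 0,
    .c 0,
    .c 0,
    .c 0⟩

/-- free value column 49 -/
def vf49 : VFz := ⟨⟨4, 4, 0, 0, 1⟩, [0, -367656960, 53827078080, -1253553107840, 4513536708000, -5479807729728, 2166376274464],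
    .c 0,
    .c 0,
    .c 0,
    .c 0⟩

/-- free value column 50 -/
def vf50 : VFz := ⟨⟨4, 4, 1, 0, 0⟩, [0, -2931979200, -8736005122080, 31660503887680, -32022798206160, 4004611889760, 5096578008128],
    .c 0,
    .c 0,
    .c 0,
    .c 0⟩

/-- free value column 51 -/
def vf51 : VFz := ⟨⟨4, 4, 1, 0, 1⟩, [0, -1000839936, -32268834720, 4129847744640, -16415383219680, 20580801428544, -8261921906336],
    .c 0,
    .c 0,
    .c 0,
    .c 0⟩

/-- free value column 52 -/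
def vf52 : VFz := ⟨⟨4, 4, 1, 1, 0⟩, [0, 500419968, 16134417360, -2064923872320, 8207691609840, -10290400714272, 4130960953168],
    .mul (.c (-1)) (.mul (.mul (.mul (.add (.mul (.sub (.c (-6)) (.mul (.c 2) (.a))) (.P)) (.mul (.mul (.mul (.c 8) (.a)) (.add (.c 6) (.a))) (.s))) (.pow (.w) 4)) (.pow (.P) 3)) (.c (-2))),
    .c 0,
    .mul (.c (-1)) (.mul (.mul (.mul (.mul (.mul (.c 2) (.a)) (.add (.c 6) (.a))) (.pow (.w) 4)) (.pow (.P) 4)) (.c (-2))),
    .c 0⟩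

/-- free value column 53 -/
def vf53 : VFz := ⟨⟨4, 4, 2, 0, 0⟩, [0, 500419968, 16134417360, -2064923872320, 8207691609840, -10290400714272, 4130960953168],
    .mul (.c (-1)) (.mul (.mul (.mul (.add (.mul (.sub (.c (-6)) (.mul (.c 2) (.a))) (.P)) (.mul (.mul (.mul (.c 8) (.a)) (.add (.c 6) (.a))) (.s))) (.pow (.w) 4)) (.pow (.P) 3)) (.c 2)),
    .c 0,
    .mul (.c (-1)) (.mul (.mul (.mul (.mul (.mul (.c 2) (.a)) (.add (.c 6) (.a))) (.pow (.w) 4)) (.pow (.P) 4)) (.c 2)),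
    .c 0⟩

/-- free value column 54 -/
def vf54 : VFz := ⟨⟨4, 5, 0, 0, 0⟩, [0, -183828480, 26913539040, -626776553920, 2256768354000, -2739903864864, 1083188137232],
    .c 0,
    .c 0,
    .c 0,
    .c 0⟩

/-- free value column 55 -/
def vf55 : VFz := ⟨⟨4, 5, 1, 0, 0⟩, [0, -500419968, -16134417360, 2064923872320, -8207691609840, 10290400714272, -4130960953168],
    .c 0,
    .c 0,
    .c 0,
    .c 0⟩

/-- free value column 56 -/
def vf56 : VFz := ⟨⟨5, 0, 0, 0, 0⟩, [-13965068362064, 77571924581360, -178531820283936, 219239471715200, -153635608028480, 60533871978240, -12135247394064, 922475793744],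
    .c 0,
    .c 0,
    .c 0,
    .c 0⟩

/-- free value column 57 -/
def vf57 : VFz := ⟨⟨5, 0, 0, 0, 1⟩, [27930136724128, -155143849162720, 357063640567872, -438478943430400, 307271216056960, -121067743956480, 24270494788128, -1844951587488],
    .c 0,
    .c 0,
    .c 0,
    .c 0⟩

/-- free value column 58 -/
def vf58 : VFz := ⟨⟨5, 0, 0, 0, 2⟩, [-13965068362064, 77571924581360, -178531820283936, 219239471715200, -153635608028480, 60533871978240, -12135247394064, 922475793744],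
    .c 0,
    .mul (.c (-1)) (.mul (.mul (.add (.mul (.sub (.c (-6)) (.mul (.c 2) (.a))) (.P)) (.mul (.mul (.mul (.c 10) (.a)) (.add (.c 6) (.a))) (.s))) (.pow (.P) 2)) (.c 2)),
    .c 0,
    .mul (.c (-1)) (.mul (.mul (.mul (.mul (.c 2) (.a)) (.add (.c 6) (.a))) (.pow (.P) 3)) (.c 2))⟩

/-- free value column 59 -/
def vf59 : VFz := ⟨⟨5, 0, 1, 0, 0⟩, [26361602941392, -142662854757072, 288149549635200, -261822699953920, 84536015294800, 21604944252240, -18829140177088, 2662582764448],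
    .c 0,
    .c 0,
    .c 0,
    .c 0⟩

/-- free value column 60 -/
def vf60 : VFz := ⟨⟨5, 0, 1, 0, 1⟩, [-80653342606912, 440469558676864, -933362739838272, 962124343338240, -476343246646560, 77857855452000, 13387785566048, -3480213941408],
    .c 0,
    .c 0,
    .c 0,
    .c 0⟩

/-- free value column 61 -/
def vf61 : VFz := ⟨⟨5, 0, 1, 0, 2⟩, [54291739665520, -297806703919792, 645213190203072, -700301643384320, 391807231351760, -99462799704240, 5441354611040, 817631176960],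
    .c 0,
    .mul (.c (-1)) (.mul (.mul (.add (.mul (.sub (.c (-6)) (.mul (.c 2) (.a))) (.P)) (.mul (.mul (.mul (.c 10) (.a)) (.add (.c 6) (.a))) (.s))) (.pow (.P) 2)) (.mul (.c 2) (.t))),
    .c 0,
    .mul (.c (-1)) (.mul (.mul (.mul (.mul (.c 2) (.a)) (.add (.c 6) (.a))) (.pow (.P) 3)) (.mul (.c 2) (.t)))⟩

/-- free value column 62 -/
def vf62 : VFz := ⟨⟨5, 0, 1, 1, 0⟩, [-20344764012368, 122367330398472, 272207137978584, -1426076196044800, 1723651379880760, -743444591732400, 70589694367152, 1278869073832],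
    .mul (.c (-1)) (.mul (.mul (.add (.mul (.sub (.c (-6)) (.mul (.c 2) (.a))) (.P)) (.mul (.mul (.mul (.c 10) (.a)) (.add (.c 6) (.a))) (.s))) (.pow (.P) 2)) (.c (-2))),
    .c 0,
    .mul (.c (-1)) (.mul (.mul (.mul (.mul (.c 2) (.a)) (.add (.c 6) (.a))) (.pow (.P) 3)) (.c (-2))),
    .c 0⟩

/-- free value column 63 -/
def vf63 : VFz := ⟨⟨5, 0, 1, 1, 1⟩, [-1521207316264, -204008661723536, 948512445992448, -1540928429427200, 1027046815647280, -202822480910736, -26853277449616, -817631176960],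
    .mul (.c (-1)) (.mul (.mul (.add (.mul (.sub (.c (-6)) (.mul (.c 2) (.a))) (.P)) (.mul (.mul (.mul (.c 10) (.a)) (.add (.c 6) (.a))) (.s))) (.pow (.P) 2)) (.mul (.c (-2)) (.d))),
    .c 0,
    .mul (.c (-1)) (.mul (.mul (.mul (.mul (.c 2) (.a)) (.add (.c 6) (.a))) (.pow (.P) 3)) (.mul (.c (-2)) (.d))),
    .c 0⟩

/-- free value column 64 -/
def vf64 : VFz := ⟨⟨5, 0, 1, 1, 2⟩, [-21420010828064, 97095725204880, -173125612736640, 152542113989120, -68308232196840, 14958295089264, -1741737300256],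
    .mul (.c (-1)) (.mul (.mul (.add (.mul (.sub (.c (-6)) (.mul (.c 2) (.a))) (.P)) (.mul (.mul (.mul (.c 10) (.a)) (.add (.c 6) (.a))) (.s))) (.pow (.P) 2)) (.mul (.c (-2)) (.pow (.d) 2))),
    .mul (.c (-1)) (.mul (.mul (.add (.mul (.sub (.c (-6)) (.mul (.c 2) (.a))) (.P)) (.mul (.mul (.mul (.c 10) (.a)) (.add (.c 6) (.a))) (.s))) (.pow (.P) 2)) (.mul (.c 2) (.pow (.t) 2))),
    .mul (.c (-1)) (.mul (.mul (.mul (.mul (.c 2) (.a)) (.add (.c 6) (.a))) (.pow (.P) 3)) (.mul (.c (-2)) (.pow (.d) 2))),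
    .mul (.c (-1)) (.mul (.mul (.mul (.mul (.c 2) (.a)) (.add (.c 6) (.a))) (.pow (.P) 3)) (.mul (.c 2) (.pow (.t) 2)))⟩

/-- free value column 65 -/
def vf65 : VFz := ⟨⟨5, 0, 2, 0, 0⟩, [72123153325216, -446217363246936, 493436196670344, 549796608969600, -1230288989599400, 634969454480688, -75325707139648, 1278869073832],
    .mul (.c (-1)) (.mul (.mul (.add (.mul (.sub (.c (-6)) (.mul (.c 2) (.a))) (.P)) (.mul (.mul (.mul (.c 10) (.a)) (.add (.c 6) (.a))) (.s))) (.pow (.P) 2)) (.c 2)),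
    .c 0,
    .mul (.c (-1)) (.mul (.mul (.mul (.mul (.c 2) (.a)) (.add (.c 6) (.a))) (.pow (.P) 3)) (.c 2)),
    .c 0⟩

/-- free value column 66 -/
def vf66 : VFz := ⟨⟨5, 0, 2, 0, 1⟩, [-21382228702520, 411239168743600, -1546436375452032, 2331363260239360, -1537428349563440, 341914899962160, 22937517428560, -817631176960],
    .mul (.c (-1)) (.mul (.mul (.add (.mul (.sub (.c (-6)) (.mul (.c 2) (.a))) (.P)) (.mul (.mul (.mul (.c 10) (.a)) (.add (.c 6) (.a))) (.s))) (.pow (.P) 2)) (.mul (.c 2) (.d))),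
    .c 0,
    .mul (.c (-1)) (.mul (.mul (.mul (.mul (.c 2) (.a)) (.add (.c 6) (.a))) (.pow (.P) 3)) (.mul (.c 2) (.d))),
    .c 0⟩

/-- free value column 67 -/
def vf67 : VFz := ⟨⟨5, 0, 2, 0, 2⟩, [-21420010828064, 97095725204880, -173125612736640, 152542113989120, -68308232196840, 14958295089264, -1741737300256],
    .mul (.c (-1)) (.mul (.mul (.add (.mul (.sub (.c (-6)) (.mul (.c 2) (.a))) (.P)) (.mul (.mul (.mul (.c 10) (.a)) (.add (.c 6) (.a))) (.s))) (.pow (.P) 2)) (.mul (.c 2) (.pow (.d) 2))),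
    .mul (.c (-1)) (.mul (.mul (.add (.mul (.sub (.c (-6)) (.mul (.c 2) (.a))) (.P)) (.mul (.mul (.mul (.c 10) (.a)) (.add (.c 6) (.a))) (.s))) (.pow (.P) 2)) (.mul (.c 2) (.pow (.t) 2))),
    .mul (.c (-1)) (.mul (.mul (.mul (.mul (.c 2) (.a)) (.add (.c 6) (.a))) (.pow (.P) 3)) (.mul (.c 2) (.pow (.d) 2))),
    .mul (.c (-1)) (.mul (.mul (.mul (.mul (.c 2) (.a)) (.add (.c 6) (.a))) (.pow (.P) 3)) (.mul (.c 2) (.pow (.t) 2)))⟩

/-- free value column 68 -/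
def vf68 : VFz := ⟨⟨5, 0, 2, 1, 0⟩, [-185021860332684, 1002696821836140, -1983910164524556, 1594084829618400, -167753780941440, -415537586243556, 154823965242836, 613223382720],
    .mul (.c (-1)) (.mul (.mul (.add (.mul (.sub (.c (-6)) (.mul (.c 2) (.a))) (.P)) (.mul (.mul (.mul (.c 10) (.a)) (.add (.c 6) (.a))) (.s))) (.pow (.P) 2)) (.mul (.c (-2)) (.t))),
    .c 0,
    .mul (.c (-1)) (.mul (.mul (.mul (.mul (.c 2) (.a)) (.add (.c 6) (.a))) (.pow (.P) 3)) (.mul (.c (-2)) (.t))),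
    .c 0⟩

/-- free value column 69 -/
def vf69 : VFz := ⟨⟨5, 0, 2, 1, 1⟩, [65420211469256, -228060662537952, 176229355610640, 213119422139120, -415712475115500, 235151184203616, -46146976393396],
    .mul (.c (-1)) (.mul (.mul (.add (.mul (.sub (.c (-6)) (.mul (.c 2) (.a))) (.P)) (.mul (.mul (.mul (.c 10) (.a)) (.add (.c 6) (.a))) (.s))) (.pow (.P) 2)) (.mul (.mul (.c (-2)) (.t)) (.d))),
    .c 0,
    .mul (.c (-1)) (.mul (.mul (.mul (.mul (.c 2) (.a)) (.add (.c 6) (.a))) (.pow (.P) 3)) (.mul (.mul (.c (-2)) (.t)) (.d))),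
    .c 0⟩

/-- free value column 70 -/
def vf70 : VFz := ⟨⟨5, 0, 2, 2, 0⟩, [-16065008121048, 72821793903660, -129844209552480, 114406585491840, -51231174147630, 11218721316948, -1306302975192],
    .mul (.c (-1)) (.mul (.mul (.add (.mul (.sub (.c (-6)) (.mul (.c 2) (.a))) (.P)) (.mul (.mul (.mul (.c 10) (.a)) (.add (.c 6) (.a))) (.s))) (.pow (.P) 2)) (.add (.mul (.c 2) (.pow (.u) 2)) (.mul (.c (-4)) (.pow (.t) 2)))),
    .c 0,
    .mul (.c (-1)) (.mul (.mul (.mul (.mul (.c 2) (.a)) (.add (.c 6) (.a))) (.pow (.P) 3)) (.add (.mul (.c 2) (.pow (.u) 2)) (.mul (.c (-4)) (.pow (.t) 2)))),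
    .c 0⟩

/-- free value column 71 -/
def vf71 : VFz := ⟨⟨5, 0, 3, 0, 0⟩, [153633556685948, -912120624936412, 1936620903781068, -1684218017046240, 286328083505840, 375907966896372, -156349559832820, 204407794240],
    .mul (.c (-1)) (.mul (.mul (.add (.mul (.sub (.c (-6)) (.mul (.c 2) (.a))) (.P)) (.mul (.mul (.mul (.c 10) (.a)) (.add (.c 6) (.a))) (.s))) (.pow (.P) 2)) (.mul (.c 6) (.t))),
    .c 0,
    .mul (.c (-1)) (.mul (.mul (.mul (.mul (.c 2) (.a)) (.add (.c 6) (.a))) (.pow (.P) 3)) (.mul (.c 6) (.t))),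
    .c 0⟩

/-- free value column 72 -/
def vf72 : VFz := ⟨⟨5, 0, 3, 0, 1⟩, [20259831843000, -160322238281568, 516273095335920, -823287878095600, 688945403902860, -294984364560672, 53113925594420],
    .mul (.c (-1)) (.mul (.mul (.add (.mul (.sub (.c (-6)) (.mul (.c 2) (.a))) (.P)) (.mul (.mul (.mul (.c 10) (.a)) (.add (.c 6) (.a))) (.s))) (.pow (.P) 2)) (.mul (.mul (.c 6) (.t)) (.d))),
    .c 0,
    .mul (.c (-1)) (.mul (.mul (.mul (.mul (.c 2) (.a)) (.add (.c 6) (.a))) (.pow (.P) 3)) (.mul (.mul (.c 6) (.t)) (.d))),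
    .c 0⟩

/-- free value column 73 -/
def vf73 : VFz := ⟨⟨5, 0, 3, 1, 0⟩, [-21420010828064, 97095725204880, -173125612736640, 152542113989120, -68308232196840, 14958295089264, -1741737300256],
    .mul (.c (-1)) (.mul (.mul (.add (.mul (.sub (.c (-6)) (.mul (.c 2) (.a))) (.P)) (.mul (.mul (.mul (.c 10) (.a)) (.add (.c 6) (.a))) (.s))) (.pow (.P) 2)) (.mul (.c (-2)) (.pow (.u) 2))),
    .c 0,
    .mul (.c (-1)) (.mul (.mul (.mul (.mul (.c 2) (.a)) (.add (.c 6) (.a))) (.pow (.P) 3)) (.mul (.c (-2)) (.pow (.u) 2))),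
    .c 0⟩

/-- free value column 74 -/
def vf74 : VFz := ⟨⟨5, 0, 4, 0, 0⟩, [-5355002707016, 24273931301220, -43281403184160, 38135528497280, -17077058049210, 3739573772316, -435434325064],
    .mul (.c (-1)) (.mul (.mul (.add (.mul (.sub (.c (-6)) (.mul (.c 2) (.a))) (.P)) (.mul (.mul (.mul (.c 10) (.a)) (.add (.c 6) (.a))) (.s))) (.pow (.P) 2)) (.add (.mul (.c 2) (.pow (.u) 2)) (.mul (.c 12) (.pow (.t) 2)))),
    .c 0,
    .mul (.c (-1)) (.mul (.mul (.mul (.mul (.c 2) (.a)) (.add (.c 6) (.a))) (.pow (.P) 3)) (.add (.mul (.c 2) (.pow (.u) 2)) (.mul (.c 12) (.pow (.t) 2)))),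
    .c 0⟩

/-- free value column 75 -/
def vf75 : VFz := ⟨⟨5, 1, 0, 0, 0⟩, [27930136724128, -155143849162720, 357063640567872, -438478943430400, 307271216056960, -121067743956480, 24270494788128, -1844951587488],
    .c 0,
    .c 0,
    .c 0,
    .c 0⟩

/-- free value column 76 -/
def vf76 : VFz := ⟨⟨5, 1, 0, 0, 1⟩, [-27930136724128, 155143849162720, -357063640567872, 438478943430400, -307271216056960, 121067743956480, -24270494788128, 1844951587488],
    .c 0,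
    .c 0,
    .c 0,
    .c 0⟩

/-- free value column 77 -/
def vf77 : VFz := ⟨⟨5, 1, 1, 0, 0⟩, [-80653342606912, 440469558676864, -933362739838272, 962124343338240, -476343246646560, 77857855452000, 13387785566048, -3480213941408],
    .c 0,
    .c 0,
    .c 0,
    .c 0⟩

/-- free value column 78 -/
def vf78 : VFz := ⟨⟨5, 1, 1, 0, 1⟩, [108583479331040, -595613407839584, 1290426380406144, -1400603286768640, 783614462703520, -198925599408480, 10882709222080, 1635262353920],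
    .c 0,
    .c 0,
    .c 0,
    .c 0⟩

/-- free value column 79 -/
def vf79 : VFz := ⟨⟨5, 1, 1, 1, 0⟩, [-11330819118192, 152777270394208, -570399501637272, 569317832441760, 221504744852440, -575818959457296, 214091544794032, -817631176960],
    .mul (.c (-1)) (.mul (.mul (.mul (.add (.mul (.sub (.c (-6)) (.mul (.c 2) (.a))) (.P)) (.mul (.mul (.mul (.c 10) (.a)) (.add (.c 6) (.a))) (.s))) (.w)) (.pow (.P) 2)) (.c (-2))),
    .c 0,
    .mul (.c (-1)) (.mul (.mul (.mul (.mul (.mul (.c 2) (.a)) (.add (.c 6) (.a))) (.w)) (.pow (.P) 3)) (.c (-2))),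
    .c 0⟩

/-- free value column 80 -/
def vf80 : VFz := ⟨⟨5, 1, 1, 1, 1⟩, [-42840021656128, 176479014257040, -98267612015160, -541688419023840, 939913951853160, -501919907332368, 66588100835616],
    .mul (.c (-1)) (.mul (.mul (.mul (.add (.mul (.sub (.c (-6)) (.mul (.c 2) (.a))) (.P)) (.mul (.mul (.mul (.c 10) (.a)) (.add (.c 6) (.a))) (.s))) (.w)) (.pow (.P) 2)) (.mul (.c (-2)) (.d))),
    .c 0,
    .mul (.c (-1)) (.mul (.mul (.mul (.mul (.mul (.c 2) (.a)) (.add (.c 6) (.a))) (.w)) (.pow (.P) 3)) (.mul (.c (-2)) (.d))),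
    .c 0⟩

/-- free value column 81 -/
def vf81 : VFz := ⟨⟨5, 1, 1, 1, 2⟩, [0, 14974419117360, -58820267140200, 83304905140000, -48793258127880, 7399485618336, 1935860507744],
    .mul (.c (-1)) (.mul (.mul (.mul (.add (.mul (.sub (.c (-6)) (.mul (.c 2) (.a))) (.P)) (.mul (.mul (.mul (.c 10) (.a)) (.add (.c 6) (.a))) (.s))) (.w)) (.pow (.P) 2)) (.mul (.c (-2)) (.pow (.d) 2))),
    .mul (.c (-1)) (.mul (.mul (.mul (.add (.mul (.sub (.c (-6)) (.mul (.c 2) (.a))) (.P)) (.mul (.mul (.mul (.c 10) (.a)) (.add (.c 6) (.a))) (.s))) (.w)) (.pow (.P) 2)) (.mul (.c 2) (.pow (.t) 2))),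
    .mul (.c (-1)) (.mul (.mul (.mul (.mul (.mul (.c 2) (.a)) (.add (.c 6) (.a))) (.w)) (.pow (.P) 3)) (.mul (.c (-2)) (.pow (.d) 2))),
    .mul (.c (-1)) (.mul (.mul (.mul (.mul (.mul (.c 2) (.a)) (.add (.c 6) (.a))) (.w)) (.pow (.P) 3)) (.mul (.c 2) (.pow (.t) 2)))⟩

/-- free value column 82 -/
def vf82 : VFz := ⟨⟨5, 1, 2, 0, 0⟩, [-11572616900592, 84402074860576, -145164962102712, 387726808650400, -829472795024360, 729710349745392, -214135583799600, -817631176960],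
    .mul (.c (-1)) (.mul (.mul (.mul (.add (.mul (.sub (.c (-6)) (.mul (.c 2) (.a))) (.P)) (.mul (.mul (.mul (.c 10) (.a)) (.add (.c 6) (.a))) (.s))) (.w)) (.pow (.P) 2)) (.c 2)),
    .c 0,
    .mul (.c (-1)) (.mul (.mul (.mul (.mul (.mul (.c 2) (.a)) (.add (.c 6) (.a))) (.w)) (.pow (.P) 3)) (.c 2)),
    .c 0⟩

/-- free value column 83 -/
def vf83 : VFz := ⟨⟨5, 1, 2, 0, 1⟩, [-42840021656128, 152006210093040, -358953770370600, 818637254420320, -1017973848129000, 532155145216080, -81298492067616],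
    .mul (.c (-1)) (.mul (.mul (.mul (.add (.mul (.sub (.c (-6)) (.mul (.c 2) (.a))) (.P)) (.mul (.mul (.mul (.c 10) (.a)) (.add (.c 6) (.a))) (.s))) (.w)) (.pow (.P) 2)) (.mul (.c 2) (.d))),
    .c 0,
    .mul (.c (-1)) (.mul (.mul (.mul (.mul (.mul (.c 2) (.a)) (.add (.c 6) (.a))) (.w)) (.pow (.P) 3)) (.mul (.c 2) (.d))),
    .c 0⟩

/-- free value column 84 -/
def vf84 : VFz := ⟨⟨5, 1, 2, 0, 2⟩, [0, 14974419117360, -58820267140200, 83304905140000, -48793258127880, 7399485618336, 1935860507744],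
    .mul (.c (-1)) (.mul (.mul (.mul (.add (.mul (.sub (.c (-6)) (.mul (.c 2) (.a))) (.P)) (.mul (.mul (.mul (.c 10) (.a)) (.add (.c 6) (.a))) (.s))) (.w)) (.pow (.P) 2)) (.mul (.c 2) (.pow (.d) 2))),
    .mul (.c (-1)) (.mul (.mul (.mul (.add (.mul (.sub (.c (-6)) (.mul (.c 2) (.a))) (.P)) (.mul (.mul (.mul (.c 10) (.a)) (.add (.c 6) (.a))) (.s))) (.w)) (.pow (.P) 2)) (.mul (.c 2) (.pow (.t) 2))),
    .mul (.c (-1)) (.mul (.mul (.mul (.mul (.mul (.c 2) (.a)) (.add (.c 6) (.a))) (.w)) (.pow (.P) 3)) (.mul (.c 2) (.pow (.d) 2))),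
    .mul (.c (-1)) (.mul (.mul (.mul (.mul (.mul (.c 2) (.a)) (.add (.c 6) (.a))) (.w)) (.pow (.P) 3)) (.mul (.c 2) (.pow (.t) 2)))⟩

/-- free value column 85 -/
def vf85 : VFz := ⟨⟨5, 1, 2, 1, 0⟩, [64260032484192, -141188837257848, -214048811326680, 836737551388880, -737177635671180, 150183507707880, 41274533806032],
    .mul (.c (-1)) (.mul (.mul (.mul (.add (.mul (.sub (.c (-6)) (.mul (.c 2) (.a))) (.P)) (.mul (.mul (.mul (.c 10) (.a)) (.add (.c 6) (.a))) (.s))) (.w)) (.pow (.P) 2)) (.mul (.c (-2)) (.t))),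
    .c 0,
    .mul (.c (-1)) (.mul (.mul (.mul (.mul (.mul (.c 2) (.a)) (.add (.c 6) (.a))) (.w)) (.pow (.P) 3)) (.mul (.c (-2)) (.t))),
    .c 0⟩

/-- free value column 86 -/
def vf86 : VFz := ⟨⟨5, 1, 2, 1, 1⟩, [0, -44703024845424, 140139352112760, -96271711391840, -66238447487160, 82065608817240, -15019935837568],
    .mul (.c (-1)) (.mul (.mul (.mul (.add (.mul (.sub (.c (-6)) (.mul (.c 2) (.a))) (.P)) (.mul (.mul (.mul (.c 10) (.a)) (.add (.c 6) (.a))) (.s))) (.w)) (.pow (.P) 2)) (.mul (.mul (.c (-2)) (.t)) (.d))),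
    .c 0,
    .mul (.c (-1)) (.mul (.mul (.mul (.mul (.mul (.c 2) (.a)) (.add (.c 6) (.a))) (.w)) (.pow (.P) 3)) (.mul (.mul (.c (-2)) (.t)) (.d))),
    .c 0⟩

/-- free value column 87 -/
def vf87 : VFz := ⟨⟨5, 1, 2, 2, 0⟩, [0, 11230814338020, -44115200355150, 62478678855000, -36594943595910, 5549614213752, 1451895380808],
    .mul (.c (-1)) (.mul (.mul (.mul (.add (.mul (.sub (.c (-6)) (.mul (.c 2) (.a))) (.P)) (.mul (.mul (.mul (.c 10) (.a)) (.add (.c 6) (.a))) (.s))) (.w)) (.pow (.P) 2)) (.add (.mul (.c 2) (.pow (.u) 2)) (.mul (.c (-4)) (.pow (.t) 2)))),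
    .c 0,
    .mul (.c (-1)) (.mul (.mul (.mul (.mul (.mul (.c 2) (.a)) (.add (.c 6) (.a))) (.w)) (.pow (.P) 3)) (.add (.mul (.c 2) (.pow (.u) 2)) (.mul (.c (-4)) (.pow (.t) 2)))),
    .c 0⟩

/-- free value column 88 -/
def vf88 : VFz := ⟨⟨5, 1, 3, 0, 0⟩, [21420010828064, -187296387092232, 671270193712440, -1113686386785360, 815237531947020, -180418745591592, -26564142574032],
    .mul (.c (-1)) (.mul (.mul (.mul (.add (.mul (.sub (.c (-6)) (.mul (.c 2) (.a))) (.P)) (.mul (.mul (.mul (.c 10) (.a)) (.add (.c 6) (.a))) (.s))) (.w)) (.pow (.P) 2)) (.mul (.c 6) (.t))),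
    .c 0,
    .mul (.c (-1)) (.mul (.mul (.mul (.mul (.mul (.c 2) (.a)) (.add (.c 6) (.a))) (.w)) (.pow (.P) 3)) (.mul (.c 6) (.t))),
    .c 0⟩

/-- free value column 89 -/
def vf89 : VFz := ⟨⟨5, 1, 3, 0, 1⟩, [0, -15194651624016, 95141716448040, -236947909168160, 261411479998680, -111663551290584, 7276493806592],
    .mul (.c (-1)) (.mul (.mul (.mul (.add (.mul (.sub (.c (-6)) (.mul (.c 2) (.a))) (.P)) (.mul (.mul (.mul (.c 10) (.a)) (.add (.c 6) (.a))) (.s))) (.w)) (.pow (.P) 2)) (.mul (.mul (.c 6) (.t)) (.d))),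
    .c 0,
    .mul (.c (-1)) (.mul (.mul (.mul (.mul (.mul (.c 2) (.a)) (.add (.c 6) (.a))) (.w)) (.pow (.P) 3)) (.mul (.mul (.c 6) (.t)) (.d))),
    .c 0⟩

/-- free value column 90 -/
def vf90 : VFz := ⟨⟨5, 1, 3, 1, 0⟩, [0, 14974419117360, -58820267140200, 83304905140000, -48793258127880, 7399485618336, 1935860507744],
    .mul (.c (-1)) (.mul (.mul (.mul (.add (.mul (.sub (.c (-6)) (.mul (.c 2) (.a))) (.P)) (.mul (.mul (.mul (.c 10) (.a)) (.add (.c 6) (.a))) (.s))) (.w)) (.pow (.P) 2)) (.mul (.c (-2)) (.pow (.u) 2))),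
    .c 0,
    .mul (.c (-1)) (.mul (.mul (.mul (.mul (.mul (.c 2) (.a)) (.add (.c 6) (.a))) (.w)) (.pow (.P) 3)) (.mul (.c (-2)) (.pow (.u) 2))),
    .c 0⟩

/-- free value column 91 -/
def vf91 : VFz := ⟨⟨5, 1, 4, 0, 0⟩, [0, 3743604779340, -14705066785050, 20826226285000, -12198314531970, 1849871404584, 483965126936],
    .mul (.c (-1)) (.mul (.mul (.mul (.add (.mul (.sub (.c (-6)) (.mul (.c 2) (.a))) (.P)) (.mul (.mul (.mul (.c 10) (.a)) (.add (.c 6) (.a))) (.s))) (.w)) (.pow (.P) 2)) (.add (.mul (.c 2) (.pow (.u) 2)) (.mul (.c 12) (.pow (.t) 2)))),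
    .c 0,
    .mul (.c (-1)) (.mul (.mul (.mul (.mul (.mul (.c 2) (.a)) (.add (.c 6) (.a))) (.w)) (.pow (.P) 3)) (.add (.mul (.c 2) (.pow (.u) 2)) (.mul (.c 12) (.pow (.t) 2)))),
    .c 0⟩

/-- free value column 92 -/
def vf92 : VFz := ⟨⟨5, 2, 0, 0, 0⟩, [-13965068362064, 77571924581360, -178531820283936, 219239471715200, -153635608028480, 60533871978240, -12135247394064, 922475793744],
    .c 0,
    .c 0,
    .c 0,
    .c 0⟩

/-- free value column 93 -/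
def vf93 : VFz := ⟨⟨5, 2, 1, 0, 0⟩, [54291739665520, -297806703919792, 645213190203072, -700301643384320, 391807231351760, -99462799704240, 5441354611040, 817631176960],
    .c 0,
    .c 0,
    .c 0,
    .c 0⟩

/-- free value column 94 -/
def vf94 : VFz := ⟨⟨5, 2, 1, 1, 0⟩, [-21420010828064, 68406656066352, -89435685259800, 172561793275680, -213794479915200, 52507125169872, 30026152280784],
    .mul (.c (-1)) (.mul (.mul (.mul (.add (.mul (.sub (.c (-6)) (.mul (.c 2) (.a))) (.P)) (.mul (.mul (.mul (.c 10) (.a)) (.add (.c 6) (.a))) (.s))) (.pow (.w) 2)) (.pow (.P) 2)) (.c (-2))),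
    .c 0,
    .mul (.c (-1)) (.mul (.mul (.mul (.mul (.mul (.c 2) (.a)) (.add (.c 6) (.a))) (.pow (.w) 2)) (.pow (.P) 3)) (.c (-2))),
    .c 0⟩

/-- free value column 95 -/
def vf95 : VFz := ⟨⟨5, 2, 1, 1, 1⟩, [0, 28937354092944, -122457992296920, 128256102576000, 168552171140040, -356047566259008, 152797129618280],
    .mul (.c (-1)) (.mul (.mul (.mul (.add (.mul (.sub (.c (-6)) (.mul (.c 2) (.a))) (.P)) (.mul (.mul (.mul (.c 10) (.a)) (.add (.c 6) (.a))) (.s))) (.pow (.w) 2)) (.pow (.P) 2)) (.mul (.c (-2)) (.d))),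
    .c 0,
    .mul (.c (-1)) (.mul (.mul (.mul (.mul (.mul (.c 2) (.a)) (.add (.c 6) (.a))) (.pow (.w) 2)) (.pow (.P) 3)) (.mul (.c (-2)) (.d))),
    .c 0⟩

/-- free value column 96 -/
def vf96 : VFz := ⟨⟨5, 2, 1, 1, 2⟩, [0, -84339528720, -7848866645880, 29680272633600, -37081820542200, 17369990678784, -2038764409432],
    .mul (.c (-1)) (.mul (.mul (.mul (.add (.mul (.sub (.c (-6)) (.mul (.c 2) (.a))) (.P)) (.mul (.mul (.mul (.c 10) (.a)) (.add (.c 6) (.a))) (.s))) (.pow (.w) 2)) (.pow (.P) 2)) (.mul (.c (-2)) (.pow (.d) 2))),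
    .mul (.c (-1)) (.mul (.mul (.mul (.add (.mul (.sub (.c (-6)) (.mul (.c 2) (.a))) (.P)) (.mul (.mul (.mul (.c 10) (.a)) (.add (.c 6) (.a))) (.s))) (.pow (.w) 2)) (.pow (.P) 2)) (.mul (.c 2) (.pow (.t) 2))),
    .mul (.c (-1)) (.mul (.mul (.mul (.mul (.mul (.c 2) (.a)) (.add (.c 6) (.a))) (.pow (.w) 2)) (.pow (.P) 3)) (.mul (.c (-2)) (.pow (.d) 2))),
    .mul (.c (-1)) (.mul (.mul (.mul (.mul (.mul (.c 2) (.a)) (.add (.c 6) (.a))) (.pow (.w) 2)) (.pow (.P) 3)) (.mul (.c 2) (.pow (.t) 2)))⟩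

/-- free value column 97 -/
def vf97 : VFz := ⟨⟨5, 2, 2, 0, 0⟩, [-21420010828064, 65718438816528, -37232204944440, -141336640590240, 198187406948640, -17448496107120, -45330597731136],
    .mul (.c (-1)) (.mul (.mul (.mul (.add (.mul (.sub (.c (-6)) (.mul (.c 2) (.a))) (.P)) (.mul (.mul (.mul (.c 10) (.a)) (.add (.c 6) (.a))) (.s))) (.pow (.w) 2)) (.pow (.P) 2)) (.c 2)),
    .c 0,
    .mul (.c (-1)) (.mul (.mul (.mul (.mul (.mul (.c 2) (.a)) (.add (.c 6) (.a))) (.pow (.w) 2)) (.pow (.P) 3)) (.c 2)),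
    .c 0⟩

/-- free value column 98 -/
def vf98 : VFz := ⟨⟨5, 2, 2, 0, 1⟩, [0, 31297680491376, -81427609680360, 86242427449600, -215397921482760, 316165546017216, -136898629949576],
    .mul (.c (-1)) (.mul (.mul (.mul (.add (.mul (.sub (.c (-6)) (.mul (.c 2) (.a))) (.P)) (.mul (.mul (.mul (.c 10) (.a)) (.add (.c 6) (.a))) (.s))) (.pow (.w) 2)) (.pow (.P) 2)) (.mul (.c 2) (.d))),
    .c 0,
    .mul (.c (-1)) (.mul (.mul (.mul (.mul (.mul (.c 2) (.a)) (.add (.c 6) (.a))) (.pow (.w) 2)) (.pow (.P) 3)) (.mul (.c 2) (.d))),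
    .c 0⟩

/-- free value column 99 -/
def vf99 : VFz := ⟨⟨5, 2, 2, 0, 2⟩, [0, -84339528720, -7848866645880, 29680272633600, -37081820542200, 17369990678784, -2038764409432],
    .mul (.c (-1)) (.mul (.mul (.mul (.add (.mul (.sub (.c (-6)) (.mul (.c 2) (.a))) (.P)) (.mul (.mul (.mul (.c 10) (.a)) (.add (.c 6) (.a))) (.s))) (.pow (.w) 2)) (.pow (.P) 2)) (.mul (.c 2) (.pow (.d) 2))),
    .mul (.c (-1)) (.mul (.mul (.mul (.add (.mul (.sub (.c (-6)) (.mul (.c 2) (.a))) (.P)) (.mul (.mul (.mul (.c 10) (.a)) (.add (.c 6) (.a))) (.s))) (.pow (.w) 2)) (.pow (.P) 2)) (.mul (.c 2) (.pow (.t) 2))),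
    .mul (.c (-1)) (.mul (.mul (.mul (.mul (.mul (.c 2) (.a)) (.add (.c 6) (.a))) (.pow (.w) 2)) (.pow (.P) 3)) (.mul (.c 2) (.pow (.d) 2))),
    .mul (.c (-1)) (.mul (.mul (.mul (.mul (.mul (.c 2) (.a)) (.add (.c 6) (.a))) (.pow (.w) 2)) (.pow (.P) 3)) (.mul (.c 2) (.pow (.t) 2)))⟩

/-- free value column 100 -/
def vf100 : VFz := ⟨⟨5, 2, 2, 1, 0⟩, [0, -43443111143424, 93191297136660, 105965646801280, -415470780563520, 345144097093896, -85411582303708],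
    .mul (.c (-1)) (.mul (.mul (.mul (.add (.mul (.sub (.c (-6)) (.mul (.c 2) (.a))) (.P)) (.mul (.mul (.mul (.c 10) (.a)) (.add (.c 6) (.a))) (.s))) (.pow (.w) 2)) (.pow (.P) 2)) (.mul (.c (-2)) (.t))),
    .c 0,
    .mul (.c (-1)) (.mul (.mul (.mul (.mul (.mul (.c 2) (.a)) (.add (.c 6) (.a))) (.pow (.w) 2)) (.pow (.P) 3)) (.mul (.c (-2)) (.t))),
    .c 0⟩

/-- free value column 101 -/
def vf101 : VFz := ⟨⟨5, 2, 2, 1, 1⟩, [0, -88035816048, 23355106133460, -68286524406080, 32935304346120, 47212153744056, -35101342582712],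
    .mul (.c (-1)) (.mul (.mul (.mul (.add (.mul (.sub (.c (-6)) (.mul (.c 2) (.a))) (.P)) (.mul (.mul (.mul (.c 10) (.a)) (.add (.c 6) (.a))) (.s))) (.pow (.w) 2)) (.pow (.P) 2)) (.mul (.mul (.c (-2)) (.t)) (.d))),
    .c 0,
    .mul (.c (-1)) (.mul (.mul (.mul (.mul (.mul (.c 2) (.a)) (.add (.c 6) (.a))) (.pow (.w) 2)) (.pow (.P) 3)) (.mul (.mul (.c (-2)) (.t)) (.d))),
    .c 0⟩

/-- free value column 102 -/
def vf102 : VFz := ⟨⟨5, 2, 2, 2, 0⟩, [0, -63254646540, -5886649984410, 22260204475200, -27811365406650, 13027493009088, -1529073307074],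
    .mul (.c (-1)) (.mul (.mul (.mul (.add (.mul (.sub (.c (-6)) (.mul (.c 2) (.a))) (.P)) (.mul (.mul (.mul (.c 10) (.a)) (.add (.c 6) (.a))) (.s))) (.pow (.w) 2)) (.pow (.P) 2)) (.add (.mul (.c 2) (.pow (.u) 2)) (.mul (.c (-4)) (.pow (.t) 2)))),
    .c 0,
    .mul (.c (-1)) (.mul (.mul (.mul (.mul (.mul (.c 2) (.a)) (.add (.c 6) (.a))) (.pow (.w) 2)) (.pow (.P) 3)) (.add (.mul (.c 2) (.pow (.u) 2)) (.mul (.c (-4)) (.pow (.t) 2)))),
    .c 0⟩

/-- free value column 103 -/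
def vf103 : VFz := ⟨⟨5, 2, 3, 0, 0⟩, [0, -16791923440896, 110694304840620, -320464176826880, 462316530906240, -305262076852104, 69513082635004],
    .mul (.c (-1)) (.mul (.mul (.mul (.add (.mul (.sub (.c (-6)) (.mul (.c 2) (.a))) (.P)) (.mul (.mul (.mul (.c 10) (.a)) (.add (.c 6) (.a))) (.s))) (.pow (.w) 2)) (.pow (.P) 2)) (.mul (.c 6) (.t))),
    .c 0,
    .mul (.c (-1)) (.mul (.mul (.mul (.mul (.mul (.c 2) (.a)) (.add (.c 6) (.a))) (.pow (.w) 2)) (.pow (.P) 3)) (.mul (.c 6) (.t))),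
    .c 0⟩

/-- free value column 104 -/
def vf104 : VFz := ⟨⟨5, 2, 3, 0, 1⟩, [0, 425393930928, 8040360450060, -50434566128320, 115391977822680, -116692116459192, 43256400220440],
    .mul (.c (-1)) (.mul (.mul (.mul (.add (.mul (.sub (.c (-6)) (.mul (.c 2) (.a))) (.P)) (.mul (.mul (.mul (.c 10) (.a)) (.add (.c 6) (.a))) (.s))) (.pow (.w) 2)) (.pow (.P) 2)) (.mul (.mul (.c 6) (.t)) (.d))),
    .c 0,
    .mul (.c (-1)) (.mul (.mul (.mul (.mul (.mul (.c 2) (.a)) (.add (.c 6) (.a))) (.pow (.w) 2)) (.pow (.P) 3)) (.mul (.mul (.c 6) (.t)) (.d))),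
    .c 0⟩

/-- free value column 105 -/
def vf105 : VFz := ⟨⟨5, 2, 3, 1, 0⟩, [0, -84339528720, -7848866645880, 29680272633600, -37081820542200, 17369990678784, -2038764409432],
    .mul (.c (-1)) (.mul (.mul (.mul (.add (.mul (.sub (.c (-6)) (.mul (.c 2) (.a))) (.P)) (.mul (.mul (.mul (.c 10) (.a)) (.add (.c 6) (.a))) (.s))) (.pow (.w) 2)) (.pow (.P) 2)) (.mul (.c (-2)) (.pow (.u) 2))),
    .c 0,
    .mul (.c (-1)) (.mul (.mul (.mul (.mul (.mul (.c 2) (.a)) (.add (.c 6) (.a))) (.pow (.w) 2)) (.pow (.P) 3)) (.mul (.c (-2)) (.pow (.u) 2))),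
    .c 0⟩

/-- free value column 106 -/
def vf106 : VFz := ⟨⟨5, 2, 4, 0, 0⟩, [0, -21084882180, -1962216661470, 7420068158400, -9270455135550, 4342497669696, -509691102358],
    .mul (.c (-1)) (.mul (.mul (.mul (.add (.mul (.sub (.c (-6)) (.mul (.c 2) (.a))) (.P)) (.mul (.mul (.mul (.c 10) (.a)) (.add (.c 6) (.a))) (.s))) (.pow (.w) 2)) (.pow (.P) 2)) (.add (.mul (.c 2) (.pow (.u) 2)) (.mul (.c 12) (.pow (.t) 2)))),
    .c 0,
    .mul (.c (-1)) (.mul (.mul (.mul (.mul (.mul (.c 2) (.a)) (.add (.c 6) (.a))) (.pow (.w) 2)) (.pow (.P) 3)) (.add (.mul (.c 2) (.pow (.u) 2)) (.mul (.c 12) (.pow (.t) 2)))),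
    .c 0⟩

/-- free value column 107 -/
def vf107 : VFz := ⟨⟨5, 3, 1, 1, 0⟩, [0, 14988582495840, -43948353683160, 39335619324640, -44638666241160, 70990003450656, -36765734649776],
    .mul (.c (-1)) (.mul (.mul (.mul (.add (.mul (.sub (.c (-6)) (.mul (.c 2) (.a))) (.P)) (.mul (.mul (.mul (.c 10) (.a)) (.add (.c 6) (.a))) (.s))) (.pow (.w) 3)) (.pow (.P) 2)) (.c (-2))),
    .c 0,
    .mul (.c (-1)) (.mul (.mul (.mul (.mul (.mul (.c 2) (.a)) (.add (.c 6) (.a))) (.pow (.w) 3)) (.pow (.P) 3)) (.c (-2))),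
    .c 0⟩

/-- free value column 108 -/
def vf108 : VFz := ⟨⟨5, 3, 1, 1, 1⟩, [0, -28274660016, -16459405162200, 73778827656480, -133477525010880, 103770199574640, -27639019336224],
    .mul (.c (-1)) (.mul (.mul (.mul (.add (.mul (.sub (.c (-6)) (.mul (.c 2) (.a))) (.P)) (.mul (.mul (.mul (.c 10) (.a)) (.add (.c 6) (.a))) (.s))) (.pow (.w) 3)) (.pow (.P) 2)) (.mul (.c (-2)) (.d))),
    .c 0,
    .mul (.c (-1)) (.mul (.mul (.mul (.mul (.mul (.c 2) (.a)) (.add (.c 6) (.a))) (.pow (.w) 3)) (.pow (.P) 3)) (.mul (.c (-2)) (.d))),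
    .c 0⟩

/-- free value column 109 -/
def vf109 : VFz := ⟨⟨5, 3, 1, 1, 2⟩, [0, 9942360672, -146624543520, 3058696974560, -10455470812080, 12187437025920, -4652070044016],
    .mul (.c (-1)) (.mul (.mul (.mul (.add (.mul (.sub (.c (-6)) (.mul (.c 2) (.a))) (.P)) (.mul (.mul (.mul (.c 10) (.a)) (.add (.c 6) (.a))) (.s))) (.pow (.w) 3)) (.pow (.P) 2)) (.mul (.c (-2)) (.pow (.d) 2))),
    .mul (.c (-1)) (.mul (.mul (.mul (.add (.mul (.sub (.c (-6)) (.mul (.c 2) (.a))) (.P)) (.mul (.mul (.mul (.c 10) (.a)) (.add (.c 6) (.a))) (.s))) (.pow (.w) 3)) (.pow (.P) 2)) (.mul (.c 2) (.pow (.t) 2))),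
    .mul (.c (-1)) (.mul (.mul (.mul (.mul (.mul (.c 2) (.a)) (.add (.c 6) (.a))) (.pow (.w) 3)) (.pow (.P) 3)) (.mul (.c (-2)) (.pow (.d) 2))),
    .mul (.c (-1)) (.mul (.mul (.mul (.mul (.mul (.c 2) (.a)) (.add (.c 6) (.a))) (.pow (.w) 3)) (.pow (.P) 3)) (.mul (.c 2) (.pow (.t) 2)))⟩

/-- free value column 110 -/
def vf110 : VFz := ⟨⟨5, 3, 2, 0, 0⟩, [0, 15317498575104, -42589963100760, 14670494370080, 74468490530040, -101296120877280, 39488373214960],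
    .mul (.c (-1)) (.mul (.mul (.mul (.add (.mul (.sub (.c (-6)) (.mul (.c 2) (.a))) (.P)) (.mul (.mul (.mul (.c 10) (.a)) (.add (.c 6) (.a))) (.s))) (.pow (.w) 3)) (.pow (.P) 2)) (.c 2)),
    .c 0,
    .mul (.c (-1)) (.mul (.mul (.mul (.mul (.mul (.c 2) (.a)) (.add (.c 6) (.a))) (.pow (.w) 3)) (.pow (.P) 3)) (.c 2)),
    .c 0⟩

/-- free value column 111 -/
def vf111 : VFz := ⟨⟨5, 3, 2, 0, 1⟩, [0, -348852897552, -14349563247240, 32707474979680, 26972126090400, -83039984963184, 38092241874560],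
    .mul (.c (-1)) (.mul (.mul (.mul (.add (.mul (.sub (.c (-6)) (.mul (.c 2) (.a))) (.P)) (.mul (.mul (.mul (.c 10) (.a)) (.add (.c 6) (.a))) (.s))) (.pow (.w) 3)) (.pow (.P) 2)) (.mul (.c 2) (.d))),
    .c 0,
    .mul (.c (-1)) (.mul (.mul (.mul (.mul (.mul (.c 2) (.a)) (.add (.c 6) (.a))) (.pow (.w) 3)) (.pow (.P) 3)) (.mul (.c 2) (.d))),
    .c 0⟩

/-- free value column 112 -/
def vf112 : VFz := ⟨⟨5, 3, 2, 0, 2⟩, [0, 9942360672, -146624543520, 3058696974560, -10455470812080, 12187437025920, -4652070044016],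
    .mul (.c (-1)) (.mul (.mul (.mul (.add (.mul (.sub (.c (-6)) (.mul (.c 2) (.a))) (.P)) (.mul (.mul (.mul (.c 10) (.a)) (.add (.c 6) (.a))) (.s))) (.pow (.w) 3)) (.pow (.P) 2)) (.mul (.c 2) (.pow (.d) 2))),
    .mul (.c (-1)) (.mul (.mul (.mul (.add (.mul (.sub (.c (-6)) (.mul (.c 2) (.a))) (.P)) (.mul (.mul (.mul (.c 10) (.a)) (.add (.c 6) (.a))) (.s))) (.pow (.w) 3)) (.pow (.P) 2)) (.mul (.c 2) (.pow (.t) 2))),
    .mul (.c (-1)) (.mul (.mul (.mul (.mul (.mul (.c 2) (.a)) (.add (.c 6) (.a))) (.pow (.w) 3)) (.pow (.P) 3)) (.mul (.c 2) (.pow (.d) 2))),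
    .mul (.c (-1)) (.mul (.mul (.mul (.mul (.mul (.c 2) (.a)) (.add (.c 6) (.a))) (.pow (.w) 3)) (.pow (.P) 3)) (.mul (.c 2) (.pow (.t) 2)))⟩

/-- free value column 113 -/
def vf113 : VFz := ⟨⟨5, 3, 2, 1, 0⟩, [0, -251222368128, 24779545701660, -70001727026240, 30554210880600, 53337342982776, -38403397985196],
    .mul (.c (-1)) (.mul (.mul (.mul (.add (.mul (.sub (.c (-6)) (.mul (.c 2) (.a))) (.P)) (.mul (.mul (.mul (.c 10) (.a)) (.add (.c 6) (.a))) (.s))) (.pow (.w) 3)) (.pow (.P) 2)) (.mul (.c (-2)) (.t))),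
    .c 0,
    .mul (.c (-1)) (.mul (.mul (.mul (.mul (.mul (.c 2) (.a)) (.add (.c 6) (.a))) (.pow (.w) 3)) (.pow (.P) 3)) (.mul (.c (-2)) (.t))),
    .c 0⟩

/-- free value column 114 -/
def vf114 : VFz := ⟨⟨5, 3, 2, 1, 1⟩, [0, -68342539944, 676075184340, -11018999009920, 37115617161000, -43520070088368, 16802555094400],
    .mul (.c (-1)) (.mul (.mul (.mul (.add (.mul (.sub (.c (-6)) (.mul (.c 2) (.a))) (.P)) (.mul (.mul (.mul (.c 10) (.a)) (.add (.c 6) (.a))) (.s))) (.pow (.w) 3)) (.pow (.P) 2)) (.mul (.mul (.c (-2)) (.t)) (.d))),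
    .c 0,
    .mul (.c (-1)) (.mul (.mul (.mul (.mul (.mul (.c 2) (.a)) (.add (.c 6) (.a))) (.pow (.w) 3)) (.pow (.P) 3)) (.mul (.mul (.c (-2)) (.t)) (.d))),
    .c 0⟩

/-- free value column 115 -/
def vf115 : VFz := ⟨⟨5, 3, 2, 2, 0⟩, [0, 7456770504, -109968407640, 2294022730920, -7841603109060, 9140577769440, -3489052533012],
    .mul (.c (-1)) (.mul (.mul (.mul (.add (.mul (.sub (.c (-6)) (.mul (.c 2) (.a))) (.P)) (.mul (.mul (.mul (.c 10) (.a)) (.add (.c 6) (.a))) (.s))) (.pow (.w) 3)) (.pow (.P) 2)) (.add (.mul (.c 2) (.pow (.u) 2)) (.mul (.c (-4)) (.pow (.t) 2)))),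
    .c 0,
    .mul (.c (-1)) (.mul (.mul (.mul (.mul (.mul (.c 2) (.a)) (.add (.c 6) (.a))) (.pow (.w) 3)) (.pow (.P) 3)) (.add (.mul (.c 2) (.pow (.u) 2)) (.mul (.c (-4)) (.pow (.t) 2)))),
    .c 0⟩

/-- free value column 116 -/
def vf116 : VFz := ⟨⟨5, 3, 3, 0, 0⟩, [0, 628349925696, 6029422707780, -36484575609920, 75951188039880, -74067557594232, 27950175446860],
    .mul (.c (-1)) (.mul (.mul (.mul (.add (.mul (.sub (.c (-6)) (.mul (.c 2) (.a))) (.P)) (.mul (.mul (.mul (.c 10) (.a)) (.add (.c 6) (.a))) (.s))) (.pow (.w) 3)) (.pow (.P) 2)) (.mul (.c 6) (.t))),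
    .c 0,
    .mul (.c (-1)) (.mul (.mul (.mul (.mul (.mul (.c 2) (.a)) (.add (.c 6) (.a))) (.pow (.w) 3)) (.pow (.P) 3)) (.mul (.c 6) (.t))),
    .c 0⟩

/-- free value column 117 -/
def vf117 : VFz := ⟨⟨5, 3, 3, 0, 1⟩, [0, 28573097256, -89577010260, -1215788888320, 4706266087320, -5229678015312, 1805725081664],
    .mul (.c (-1)) (.mul (.mul (.mul (.add (.mul (.sub (.c (-6)) (.mul (.c 2) (.a))) (.P)) (.mul (.mul (.mul (.c 10) (.a)) (.add (.c 6) (.a))) (.s))) (.pow (.w) 3)) (.pow (.P) 2)) (.mul (.mul (.c 6) (.t)) (.d))),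
    .c 0,
    .mul (.c (-1)) (.mul (.mul (.mul (.mul (.mul (.c 2) (.a)) (.add (.c 6) (.a))) (.pow (.w) 3)) (.pow (.P) 3)) (.mul (.mul (.c 6) (.t)) (.d))),
    .c 0⟩

/-- free value column 118 -/
def vf118 : VFz := ⟨⟨5, 3, 3, 1, 0⟩, [0, 9942360672, -146624543520, 3058696974560, -10455470812080, 12187437025920, -4652070044016],
    .mul (.c (-1)) (.mul (.mul (.mul (.add (.mul (.sub (.c (-6)) (.mul (.c 2) (.a))) (.P)) (.mul (.mul (.mul (.c 10) (.a)) (.add (.c 6) (.a))) (.s))) (.pow (.w) 3)) (.pow (.P) 2)) (.mul (.c (-2)) (.pow (.u) 2))),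
    .c 0,
    .mul (.c (-1)) (.mul (.mul (.mul (.mul (.mul (.c 2) (.a)) (.add (.c 6) (.a))) (.pow (.w) 3)) (.pow (.P) 3)) (.mul (.c (-2)) (.pow (.u) 2))),
    .c 0⟩

/-- free value column 119 -/
def vf119 : VFz := ⟨⟨5, 3, 4, 0, 0⟩, [0, 2485590168, -36656135880, 764674243640, -2613867703020, 3046859256480, -1163017511004],
    .mul (.c (-1)) (.mul (.mul (.mul (.add (.mul (.sub (.c (-6)) (.mul (.c 2) (.a))) (.P)) (.mul (.mul (.mul (.c 10) (.a)) (.add (.c 6) (.a))) (.s))) (.pow (.w) 3)) (.pow (.P) 2)) (.add (.mul (.c 2) (.pow (.u) 2)) (.mul (.c 12) (.pow (.t) 2)))),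
    .c 0,
    .mul (.c (-1)) (.mul (.mul (.mul (.mul (.mul (.c 2) (.a)) (.add (.c 6) (.a))) (.pow (.w) 3)) (.pow (.P) 3)) (.add (.mul (.c 2) (.pow (.u) 2)) (.mul (.c 12) (.pow (.t) 2)))),
    .c 0⟩

/-- free value column 120 -/
def vf120 : VFz := ⟨⟨5, 4, 1, 1, 0⟩, [0, -104224250064, -7555617558840, 23562878684480, -16170878918040, -7004883373056, 7265375678600],
    .mul (.c (-1)) (.mul (.mul (.mul (.add (.mul (.sub (.c (-6)) (.mul (.c 2) (.a))) (.P)) (.mul (.mul (.mul (.c 10) (.a)) (.add (.c 6) (.a))) (.s))) (.pow (.w) 4)) (.pow (.P) 2)) (.c (-2))),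
    .c 0,
    .mul (.c (-1)) (.mul (.mul (.mul (.mul (.mul (.c 2) (.a)) (.add (.c 6) (.a))) (.pow (.w) 4)) (.pow (.P) 3)) (.c (-2))),
    .c 0⟩

/-- free value column 121 -/
def vf121 : VFz := ⟨⟨5, 4, 1, 1, 1⟩, [0, 19884721344, -293249087040, 6117393949120, -20910941624160, 24374874051840, -9304140088032],
    .mul (.c (-1)) (.mul (.mul (.mul (.add (.mul (.sub (.c (-6)) (.mul (.c 2) (.a))) (.P)) (.mul (.mul (.mul (.c 10) (.a)) (.add (.c 6) (.a))) (.s))) (.pow (.w) 4)) (.pow (.P) 2)) (.mul (.c (-2)) (.d))),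
    .c 0,
    .mul (.c (-1)) (.mul (.mul (.mul (.mul (.mul (.c 2) (.a)) (.add (.c 6) (.a))) (.pow (.w) 4)) (.pow (.P) 3)) (.mul (.c (-2)) (.d))),
    .c 0⟩

/-- free value column 122 -/
def vf122 : VFz := ⟨⟨5, 4, 2, 0, 0⟩, [0, -104224250064, -7555617558840, 23562878684480, -16170878918040, -7004883373056, 7265375678600],
    .mul (.c (-1)) (.mul (.mul (.mul (.add (.mul (.sub (.c (-6)) (.mul (.c 2) (.a))) (.P)) (.mul (.mul (.mul (.c 10) (.a)) (.add (.c 6) (.a))) (.s))) (.pow (.w) 4)) (.pow (.P) 2)) (.c 2)),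
    .c 0,
    .mul (.c (-1)) (.mul (.mul (.mul (.mul (.mul (.c 2) (.a)) (.add (.c 6) (.a))) (.pow (.w) 4)) (.pow (.P) 3)) (.c 2)),
    .c 0⟩

/-- free value column 123 -/
def vf123 : VFz := ⟨⟨5, 4, 2, 0, 1⟩, [0, 19884721344, -293249087040, 6117393949120, -20910941624160, 24374874051840, -9304140088032],
    .mul (.c (-1)) (.mul (.mul (.mul (.add (.mul (.sub (.c (-6)) (.mul (.c 2) (.a))) (.P)) (.mul (.mul (.mul (.c 10) (.a)) (.add (.c 6) (.a))) (.s))) (.pow (.w) 4)) (.pow (.P) 2)) (.mul (.c 2) (.d))),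
    .c 0,
    .mul (.c (-1)) (.mul (.mul (.mul (.mul (.mul (.c 2) (.a)) (.add (.c 6) (.a))) (.pow (.w) 4)) (.pow (.P) 3)) (.mul (.c 2) (.d))),
    .c 0⟩

/-- free value column 124 -/
def vf124 : VFz := ⟨⟨5, 4, 2, 1, 0⟩, [0, -29827082016, 439873630560, -9176090923680, 31366412436240, -36562311077760, 13956210132048],
    .mul (.c (-1)) (.mul (.mul (.mul (.add (.mul (.sub (.c (-6)) (.mul (.c 2) (.a))) (.P)) (.mul (.mul (.mul (.c 10) (.a)) (.add (.c 6) (.a))) (.s))) (.pow (.w) 4)) (.pow (.P) 2)) (.mul (.c (-2)) (.t))),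
    .c 0,
    .mul (.c (-1)) (.mul (.mul (.mul (.mul (.mul (.c 2) (.a)) (.add (.c 6) (.a))) (.pow (.w) 4)) (.pow (.P) 3)) (.mul (.c (-2)) (.t))),
    .c 0⟩

/-- free value column 125 -/
def vf125 : VFz := ⟨⟨5, 4, 3, 0, 0⟩, [0, -9942360672, 146624543520, -3058696974560, 10455470812080, -12187437025920, 4652070044016],
    .mul (.c (-1)) (.mul (.mul (.mul (.add (.mul (.sub (.c (-6)) (.mul (.c 2) (.a))) (.P)) (.mul (.mul (.mul (.c 10) (.a)) (.add (.c 6) (.a))) (.s))) (.pow (.w) 4)) (.pow (.P) 2)) (.mul (.c 6) (.t))),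
    .c 0,
    .mul (.c (-1)) (.mul (.mul (.mul (.mul (.mul (.c 2) (.a)) (.add (.c 6) (.a))) (.pow (.w) 4)) (.pow (.P) 3)) (.mul (.c 6) (.t))),
    .c 0⟩

/-- free value column 126 -/
def vf126 : VFz := ⟨⟨5, 5, 1, 1, 0⟩, [0, 9942360672, -146624543520, 3058696974560, -10455470812080, 12187437025920, -4652070044016],
    .mul (.c (-1)) (.mul (.mul (.mul (.add (.mul (.sub (.c (-6)) (.mul (.c 2) (.a))) (.P)) (.mul (.mul (.mul (.c 10) (.a)) (.add (.c 6) (.a))) (.s))) (.pow (.w) 5)) (.pow (.P) 2)) (.c (-2))),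
    .c 0,
    .mul (.c (-1)) (.mul (.mul (.mul (.mul (.mul (.c 2) (.a)) (.add (.c 6) (.a))) (.pow (.w) 5)) (.pow (.P) 3)) (.c (-2))),
    .c 0⟩

/-- free value column 127 -/
def vf127 : VFz := ⟨⟨5, 5, 2, 0, 0⟩, [0, 9942360672, -146624543520, 3058696974560, -10455470812080, 12187437025920, -4652070044016],
    .mul (.c (-1)) (.mul (.mul (.mul (.add (.mul (.sub (.c (-6)) (.mul (.c 2) (.a))) (.P)) (.mul (.mul (.mul (.c 10) (.a)) (.add (.c 6) (.a))) (.s))) (.pow (.w) 5)) (.pow (.P) 2)) (.c 2)),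
    .c 0,
    .mul (.c (-1)) (.mul (.mul (.mul (.mul (.mul (.c 2) (.a)) (.add (.c 6) (.a))) (.pow (.w) 5)) (.pow (.P) 3)) (.c 2)),
    .c 0⟩

/-- free value column 128 -/
def vf128 : VFz := ⟨⟨6, 0, 0, 0, 0⟩, [6390946490656, -38371024538624, 97585027139920, -136108225762272, 112610999673120, -55760375926944, 15772222953648, -2206751001984, 87180972480],
    .c 0,
    .c 0,
    .c 0,
    .c 0⟩

/-- free value column 129 -/
def vf129 : VFz := ⟨⟨6, 0, 0, 0, 1⟩, [-12781892981312, 76742049077248, -195170054279840, 272216451524544, -225221999346240, 111520751853888, -31544445907296, 4413502003968, -174361944960],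
    .c 0,
    .c 0,
    .c 0,
    .c 0⟩

/-- free value column 130 -/
def vf130 : VFz := ⟨⟨6, 0, 0, 0, 2⟩, [6390946490656, -38371024538624, 97585027139920, -136108225762272, 112610999673120, -55760375926944, 15772222953648, -2206751001984, 87180972480],
    .c 0,
    .mul (.c (-1)) (.mul (.mul (.add (.mul (.sub (.c (-6)) (.mul (.c 2) (.a))) (.P)) (.mul (.mul (.mul (.c 12) (.a)) (.add (.c 6) (.a))) (.s))) (.P)) (.c 2)),
    .c 0,
    .mul (.c (-1)) (.mul (.mul (.mul (.mul (.c 2) (.a)) (.add (.c 6) (.a))) (.pow (.P) 2)) (.c 2))⟩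

/-- free value column 131 -/
def vf131 : VFz := ⟨⟨6, 0, 1, 0, 0⟩, [-10680768446976, 61277681149536, -130685307721104, 120181329165184, -23577408676640, -38528251486400, 27751627447456, -5901285699392, 162384268336],
    .c 0,
    .c 0,
    .c 0,
    .c 0⟩

/-- free value column 132 -/
def vf132 : VFz := ⟨⟨6, 0, 1, 0, 1⟩, [34143429875264, -199297411376320, 456540669722048, -512579109854912, 272376816699520, -34464248881088, -23958808987616, 7389069394816, -150406591712],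
    .c 0,
    .c 0,
    .c 0,
    .c 0⟩

/-- free value column 133 -/
def vf133 : VFz := ⟨⟨6, 0, 1, 0, 2⟩, [-23462661428288, 138019730226784, -325855362000944, 392397780689728, -248799408022880, 72992500367488, -3792818459840, -1487783695424, -11977676624],
    .c 0,
    .mul (.c (-1)) (.mul (.mul (.add (.mul (.sub (.c (-6)) (.mul (.c 2) (.a))) (.P)) (.mul (.mul (.mul (.c 12) (.a)) (.add (.c 6) (.a))) (.s))) (.P)) (.mul (.c 2) (.t))),
    .c 0,
    .mul (.c (-1)) (.mul (.mul (.mul (.mul (.c 2) (.a)) (.add (.c 6) (.a))) (.pow (.P) 2)) (.mul (.c 2) (.t)))⟩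

/-- free value column 134 -/
def vf134 : VFz := ⟨⟨6, 0, 1, 1, 0⟩, [63425907053248, -401373114452272, 280217778179712, 1505736664501832, -3115407234577440, 2215458479805088, -543909095726864, -4180997592920, 31612809616],
    .mul (.c (-1)) (.mul (.mul (.add (.mul (.sub (.c (-6)) (.mul (.c 2) (.a))) (.P)) (.mul (.mul (.mul (.c 12) (.a)) (.add (.c 6) (.a))) (.s))) (.P)) (.c (-2))),
    .c 0,
    .mul (.c (-1)) (.mul (.mul (.mul (.mul (.c 2) (.a)) (.add (.c 6) (.a))) (.pow (.P) 2)) (.c (-2))),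
    .c 0⟩

/-- free value column 135 -/
def vf135 : VFz := ⟨⟨6, 0, 1, 1, 1⟩, [-62128638835856, 663183594467328, -2443498914457264, 4269610987757232, -3779401621465880, 1506242629647224, -79568831109384, -74451183680024, 11977676624],
    .mul (.c (-1)) (.mul (.mul (.add (.mul (.sub (.c (-6)) (.mul (.c 2) (.a))) (.P)) (.mul (.mul (.mul (.c 12) (.a)) (.add (.c 6) (.a))) (.s))) (.P)) (.mul (.c (-2)) (.d))),
    .c 0,
    .mul (.c (-1)) (.mul (.mul (.mul (.mul (.c 2) (.a)) (.add (.c 6) (.a))) (.pow (.P) 2)) (.mul (.c (-2)) (.d))),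
    .c 0⟩

/-- free value column 136 -/
def vf136 : VFz := ⟨⟨6, 0, 1, 1, 2⟩, [28014811825408, -149047329769120, 328202219789232, -383578159283920, 252639382872640, -90517694933616, 14606344747536, -319575248160],
    .mul (.c (-1)) (.mul (.mul (.add (.mul (.sub (.c (-6)) (.mul (.c 2) (.a))) (.P)) (.mul (.mul (.mul (.c 12) (.a)) (.add (.c 6) (.a))) (.s))) (.P)) (.mul (.c (-2)) (.pow (.d) 2))),
    .mul (.c (-1)) (.mul (.mul (.add (.mul (.sub (.c (-6)) (.mul (.c 2) (.a))) (.P)) (.mul (.mul (.mul (.c 12) (.a)) (.add (.c 6) (.a))) (.s))) (.P)) (.mul (.c 2) (.pow (.t) 2))),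
    .mul (.c (-1)) (.mul (.mul (.mul (.mul (.c 2) (.a)) (.add (.c 6) (.a))) (.pow (.P) 2)) (.mul (.c (-2)) (.pow (.d) 2))),
    .mul (.c (-1)) (.mul (.mul (.mul (.mul (.c 2) (.a)) (.add (.c 6) (.a))) (.pow (.P) 2)) (.mul (.c 2) (.pow (.t) 2)))⟩

/-- free value column 137 -/
def vf137 : VFz := ⟨⟨6, 0, 2, 0, 0⟩, [-47930659768352, 340946890828976, -177939035463216, -1624205647452488, 3235698183950080, -2306269244864288, 581308371255904, -1640471296232, 31612809616],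
    .mul (.c (-1)) (.mul (.mul (.add (.mul (.sub (.c (-6)) (.mul (.c 2) (.a))) (.P)) (.mul (.mul (.mul (.c 12) (.a)) (.add (.c 6) (.a))) (.s))) (.P)) (.c 2)),
    .c 0,
    .mul (.c (-1)) (.mul (.mul (.mul (.mul (.c 2) (.a)) (.add (.c 6) (.a))) (.pow (.P) 2)) (.c 2)),
    .c 0⟩

/-- free value column 138 -/
def vf138 : VFz := ⟨⟨6, 0, 2, 0, 1⟩, [-3005285609200, -343033735844416, 1782400759302224, -3520093912001008, 3266442906021080, -1290156850647736, 28729089038920, 78705052063512, 11977676624],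
    .mul (.c (-1)) (.mul (.mul (.add (.mul (.sub (.c (-6)) (.mul (.c 2) (.a))) (.P)) (.mul (.mul (.mul (.c 12) (.a)) (.add (.c 6) (.a))) (.s))) (.P)) (.mul (.c 2) (.d))),
    .c 0,
    .mul (.c (-1)) (.mul (.mul (.mul (.mul (.c 2) (.a)) (.add (.c 6) (.a))) (.pow (.P) 2)) (.mul (.c 2) (.d))),
    .c 0⟩

/-- free value column 139 -/
def vf139 : VFz := ⟨⟨6, 0, 2, 0, 2⟩, [28014811825408, -149047329769120, 328202219789232, -383578159283920, 252639382872640, -90517694933616, 14606344747536, -319575248160],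
    .mul (.c (-1)) (.mul (.mul (.add (.mul (.sub (.c (-6)) (.mul (.c 2) (.a))) (.P)) (.mul (.mul (.mul (.c 12) (.a)) (.add (.c 6) (.a))) (.s))) (.P)) (.mul (.c 2) (.pow (.d) 2))),
    .mul (.c (-1)) (.mul (.mul (.add (.mul (.sub (.c (-6)) (.mul (.c 2) (.a))) (.P)) (.mul (.mul (.mul (.c 12) (.a)) (.add (.c 6) (.a))) (.s))) (.P)) (.mul (.c 2) (.pow (.t) 2))),
    .mul (.c (-1)) (.mul (.mul (.mul (.mul (.c 2) (.a)) (.add (.c 6) (.a))) (.pow (.P) 2)) (.mul (.c 2) (.pow (.d) 2))),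
    .mul (.c (-1)) (.mul (.mul (.mul (.mul (.c 2) (.a)) (.add (.c 6) (.a))) (.pow (.P) 2)) (.mul (.c 2) (.pow (.t) 2)))⟩

/-- free value column 140 -/
def vf140 : VFz := ⟨⟨6, 0, 2, 1, 0⟩, [281649232086820, -1753206564428092, 4251082204966296, -4919296804534284, 2462708006324400, -6611830172184, -405798648464664, 89483387479176, -8983257468],
    .mul (.c (-1)) (.mul (.mul (.add (.mul (.sub (.c (-6)) (.mul (.c 2) (.a))) (.P)) (.mul (.mul (.mul (.c 12) (.a)) (.add (.c 6) (.a))) (.s))) (.P)) (.mul (.c (-2)) (.t))),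
    .c 0,
    .mul (.c (-1)) (.mul (.mul (.mul (.mul (.c 2) (.a)) (.add (.c 6) (.a))) (.pow (.P) 2)) (.mul (.c (-2)) (.t))),
    .c 0⟩

/-- free value column 141 -/
def vf141 : VFz := ⟨⟨6, 0, 2, 1, 1⟩, [-85890332027192, 357992602120688, -418911878097996, -186555596737660, 819752826296260, -725263811072244, 285619784353196, -46743594835052],
    .mul (.c (-1)) (.mul (.mul (.add (.mul (.sub (.c (-6)) (.mul (.c 2) (.a))) (.P)) (.mul (.mul (.mul (.c 12) (.a)) (.add (.c 6) (.a))) (.s))) (.P)) (.mul (.mul (.c (-2)) (.t)) (.d))),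
    .c 0,
    .mul (.c (-1)) (.mul (.mul (.mul (.mul (.c 2) (.a)) (.add (.c 6) (.a))) (.pow (.P) 2)) (.mul (.mul (.c (-2)) (.t)) (.d))),
    .c 0⟩

/-- free value column 142 -/
def vf142 : VFz := ⟨⟨6, 0, 2, 2, 0⟩, [-31455155086236, 245770369058280, -647674314521466, 635812925624500, -1811492318190, -372177143551860, 171482561318684, -239681436120],
    .mul (.c (-1)) (.mul (.mul (.add (.mul (.sub (.c (-6)) (.mul (.c 2) (.a))) (.P)) (.mul (.mul (.mul (.c 12) (.a)) (.add (.c 6) (.a))) (.s))) (.P)) (.add (.mul (.c 2) (.pow (.u) 2)) (.mul (.c (-4)) (.pow (.t) 2)))),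
    .c 0,
    .mul (.c (-1)) (.mul (.mul (.mul (.mul (.c 2) (.a)) (.add (.c 6) (.a))) (.pow (.P) 2)) (.add (.mul (.c 2) (.pow (.u) 2)) (.mul (.c (-4)) (.pow (.t) 2)))),
    .c 0⟩

/-- free value column 143 -/
def vf143 : VFz := ⟨⟨6, 0, 2, 2, 1⟩, [3315340276068, -17907822806364, 10954737907140, 77444332387880, -169627045968300, 129723608468292, -33943844604010],
    .mul (.c (-1)) (.mul (.mul (.add (.mul (.sub (.c (-6)) (.mul (.c 2) (.a))) (.P)) (.mul (.mul (.mul (.c 12) (.a)) (.add (.c 6) (.a))) (.s))) (.P)) (.add (.mul (.mul (.c 2) (.pow (.u) 2)) (.d)) (.mul (.mul (.c (-4)) (.pow (.t) 2)) (.d)))),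
    .c 0,
    .mul (.c (-1)) (.mul (.mul (.mul (.mul (.c 2) (.a)) (.add (.c 6) (.a))) (.pow (.P) 2)) (.add (.mul (.mul (.c 2) (.pow (.u) 2)) (.d)) (.mul (.mul (.c (-4)) (.pow (.t) 2)) (.d)))),
    .c 0⟩

/-- free value column 144 -/
def vf144 : VFz := ⟨⟨6, 0, 3, 0, 0⟩, [-193052646213476, 1295036975578396, -3264128687810312, 3777381948088332, -1700949882856720, -282466449194792, 460431208994968, -92249472167240, -2994419156],
    .mul (.c (-1)) (.mul (.mul (.add (.mul (.sub (.c (-6)) (.mul (.c 2) (.a))) (.P)) (.mul (.mul (.mul (.c 12) (.a)) (.add (.c 6) (.a))) (.s))) (.P)) (.mul (.c 6) (.t))),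
    .c 0,
    .mul (.c (-1)) (.mul (.mul (.mul (.mul (.c 2) (.a)) (.add (.c 6) (.a))) (.pow (.P) 2)) (.mul (.c 6) (.t))),
    .c 0⟩

/-- free value column 145 -/
def vf145 : VFz := ⟨⟨6, 0, 3, 0, 1⟩, [-26168915274440, 238196716955792, -893897001058932, 1720868233873340, -1830310357786820, 1087334590806708, -344045163343340, 48021895827692],
    .mul (.c (-1)) (.mul (.mul (.add (.mul (.sub (.c (-6)) (.mul (.c 2) (.a))) (.P)) (.mul (.mul (.mul (.c 12) (.a)) (.add (.c 6) (.a))) (.s))) (.P)) (.mul (.mul (.c 6) (.t)) (.d))),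
    .c 0,
    .mul (.c (-1)) (.mul (.mul (.mul (.mul (.c 2) (.a)) (.add (.c 6) (.a))) (.pow (.P) 2)) (.mul (.mul (.c 6) (.t)) (.d))),
    .c 0⟩

/-- free value column 146 -/
def vf146 : VFz := ⟨⟨6, 0, 3, 1, 0⟩, [28014811825408, -149047329769120, 328202219789232, -383578159283920, 252639382872640, -90517694933616, 14606344747536, -319575248160],
    .mul (.c (-1)) (.mul (.mul (.add (.mul (.sub (.c (-6)) (.mul (.c 2) (.a))) (.P)) (.mul (.mul (.mul (.c 12) (.a)) (.add (.c 6) (.a))) (.s))) (.P)) (.mul (.c (-2)) (.pow (.u) 2))),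
    .c 0,
    .mul (.c (-1)) (.mul (.mul (.mul (.mul (.c 2) (.a)) (.add (.c 6) (.a))) (.pow (.P) 2)) (.mul (.c (-2)) (.pow (.u) 2))),
    .c 0⟩

/-- free value column 147 -/
def vf147 : VFz := ⟨⟨6, 0, 4, 0, 0⟩, [59469966911644, -394817698827400, 975876534310698, -1019391084908420, 254450875190830, 281659448618244, -156876216571148, -79893812040],
    .mul (.c (-1)) (.mul (.mul (.add (.mul (.sub (.c (-6)) (.mul (.c 2) (.a))) (.P)) (.mul (.mul (.mul (.c 12) (.a)) (.add (.c 6) (.a))) (.s))) (.P)) (.add (.mul (.c 2) (.pow (.u) 2)) (.mul (.c 12) (.pow (.t) 2)))),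
    .c 0,
    .mul (.c (-1)) (.mul (.mul (.mul (.mul (.c 2) (.a)) (.add (.c 6) (.a))) (.pow (.P) 2)) (.add (.mul (.c 2) (.pow (.u) 2)) (.mul (.c 12) (.pow (.t) 2)))),
    .c 0⟩

/-- free value column 148 -/
def vf148 : VFz := ⟨⟨6, 0, 4, 0, 1⟩, [-3315340276068, 17907822806364, -10954737907140, -77444332387880, 169627045968300, -129723608468292, 33943844604010],
    .mul (.c (-1)) (.mul (.mul (.add (.mul (.sub (.c (-6)) (.mul (.c 2) (.a))) (.P)) (.mul (.mul (.mul (.c 12) (.a)) (.add (.c 6) (.a))) (.s))) (.P)) (.add (.mul (.mul (.c 2) (.pow (.u) 2)) (.d)) (.mul (.mul (.c 12) (.pow (.t) 2)) (.d)))),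
    .c 0,
    .mul (.c (-1)) (.mul (.mul (.mul (.mul (.c 2) (.a)) (.add (.c 6) (.a))) (.pow (.P) 2)) (.add (.mul (.mul (.c 2) (.pow (.u) 2)) (.d)) (.mul (.mul (.c 12) (.pow (.t) 2)) (.d)))),
    .c 0⟩

/-- free value column 149 -/
def vf149 : VFz := ⟨⟨6, 1, 0, 0, 0⟩, [-12781892981312, 76742049077248, -195170054279840, 272216451524544, -225221999346240, 111520751853888, -31544445907296, 4413502003968, -174361944960],
    .c 0,
    .c 0,
    .c 0,
    .c 0⟩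

/-- free value column 150 -/
def vf150 : VFz := ⟨⟨6, 1, 0, 0, 1⟩, [12781892981312, -76742049077248, 195170054279840, -272216451524544, 225221999346240, -111520751853888, 31544445907296, -4413502003968, 174361944960],
    .c 0,
    .c 0,
    .c 0,
    .c 0⟩

/-- free value column 151 -/
def vf151 : VFz := ⟨⟨6, 1, 1, 0, 0⟩, [34143429875264, -199297411376320, 456540669722048, -512579109854912, 272376816699520, -34464248881088, -23958808987616, 7389069394816, -150406591712],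
    .c 0,
    .c 0,
    .c 0,
    .c 0⟩

/-- free value column 152 -/
def vf152 : VFz := ⟨⟨6, 1, 1, 0, 1⟩, [-46925322856576, 276039460453568, -651710724001888, 784795561379456, -497598816045760, 145985000734976, -7585636919680, -2975567390848, -23955353248],
    .c 0,
    .c 0,
    .c 0,
    .c 0⟩

/-- free value column 153 -/
def vf153 : VFz := ⟨⟨6, 1, 1, 1, 0⟩, [-32566962222528, 160074929311456, -330549077577520, 374758537878112, -256479357722400, 108042889499744, -25419871035232, 2126934191744, 11977676624],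
    .mul (.c (-1)) (.mul (.mul (.mul (.add (.mul (.sub (.c (-6)) (.mul (.c 2) (.a))) (.P)) (.mul (.mul (.mul (.c 12) (.a)) (.add (.c 6) (.a))) (.s))) (.w)) (.P)) (.c (-2))),
    .c 0,
    .mul (.c (-1)) (.mul (.mul (.mul (.mul (.mul (.c 2) (.a)) (.add (.c 6) (.a))) (.w)) (.pow (.P) 2)) (.c (-2))),
    .c 0⟩

/-- free value column 154 -/
def vf154 : VFz := ⟨⟨6, 1, 1, 1, 1⟩, [56029623650816, -298094659538240, 656404439578464, -767156318567840, 505278765745280, -181035389867232, 29212689495072, -639150496320],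
    .mul (.c (-1)) (.mul (.mul (.mul (.add (.mul (.sub (.c (-6)) (.mul (.c 2) (.a))) (.P)) (.mul (.mul (.mul (.c 12) (.a)) (.add (.c 6) (.a))) (.s))) (.w)) (.P)) (.mul (.c (-2)) (.d))),
    .c 0,
    .mul (.c (-1)) (.mul (.mul (.mul (.mul (.mul (.c 2) (.a)) (.add (.c 6) (.a))) (.w)) (.pow (.P) 2)) (.mul (.c (-2)) (.d))),
    .c 0⟩

/-- free value column 155 -/
def vf155 : VFz := ⟨⟨6, 1, 2, 0, 0⟩, [-32566962222528, 160074929311456, -330549077577520, 374758537878112, -256479357722400, 108042889499744, -25419871035232, 2126934191744, 11977676624],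
    .mul (.c (-1)) (.mul (.mul (.mul (.add (.mul (.sub (.c (-6)) (.mul (.c 2) (.a))) (.P)) (.mul (.mul (.mul (.c 12) (.a)) (.add (.c 6) (.a))) (.s))) (.w)) (.P)) (.c 2)),
    .c 0,
    .mul (.c (-1)) (.mul (.mul (.mul (.mul (.mul (.c 2) (.a)) (.add (.c 6) (.a))) (.w)) (.pow (.P) 2)) (.c 2)),
    .c 0⟩

/-- free value column 156 -/
def vf156 : VFz := ⟨⟨6, 1, 2, 0, 1⟩, [56029623650816, -298094659538240, 656404439578464, -767156318567840, 505278765745280, -181035389867232, 29212689495072, -639150496320],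
    .mul (.c (-1)) (.mul (.mul (.mul (.add (.mul (.sub (.c (-6)) (.mul (.c 2) (.a))) (.P)) (.mul (.mul (.mul (.c 12) (.a)) (.add (.c 6) (.a))) (.s))) (.w)) (.P)) (.mul (.c 2) (.d))),
    .c 0,
    .mul (.c (-1)) (.mul (.mul (.mul (.mul (.mul (.c 2) (.a)) (.add (.c 6) (.a))) (.w)) (.pow (.P) 2)) (.mul (.c 2) (.d))),
    .c 0⟩

/-- free value column 157 -/
def vf157 : VFz := ⟨⟨6, 1, 2, 1, 0⟩, [-84044435476224, 447141989307360, -984606659367696, 1150734477851760, -757918148617920, 271553084800848, -43819034242608, 958725744480],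
    .mul (.c (-1)) (.mul (.mul (.mul (.add (.mul (.sub (.c (-6)) (.mul (.c 2) (.a))) (.P)) (.mul (.mul (.mul (.c 12) (.a)) (.add (.c 6) (.a))) (.s))) (.w)) (.P)) (.mul (.c (-2)) (.t))),
    .c 0,
    .mul (.c (-1)) (.mul (.mul (.mul (.mul (.mul (.c 2) (.a)) (.add (.c 6) (.a))) (.w)) (.pow (.P) 2)) (.mul (.c (-2)) (.t))),
    .c 0⟩

/-- free value column 158 -/
def vf158 : VFz := ⟨⟨6, 1, 2, 2, 0⟩, [0, 51397136338860, -300763221024690, 611285570673640, -448370806631430, -14532994006020, 101111262946286],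
    .mul (.c (-1)) (.mul (.mul (.mul (.add (.mul (.sub (.c (-6)) (.mul (.c 2) (.a))) (.P)) (.mul (.mul (.mul (.c 12) (.a)) (.add (.c 6) (.a))) (.s))) (.w)) (.P)) (.add (.mul (.c 2) (.pow (.u) 2)) (.mul (.c (-4)) (.pow (.t) 2)))),
    .c 0,
    .mul (.c (-1)) (.mul (.mul (.mul (.mul (.mul (.c 2) (.a)) (.add (.c 6) (.a))) (.w)) (.pow (.P) 2)) (.add (.mul (.c 2) (.pow (.u) 2)) (.mul (.c (-4)) (.pow (.t) 2)))),
    .c 0⟩

/-- free value column 159 -/
def vf159 : VFz := ⟨⟨6, 1, 2, 2, 1⟩, [0, -3454388560476, 11839110377850, 14443312012560, -95717567477340, 110551113012888, -37710330812428],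
    .mul (.c (-1)) (.mul (.mul (.mul (.add (.mul (.sub (.c (-6)) (.mul (.c 2) (.a))) (.P)) (.mul (.mul (.mul (.c 12) (.a)) (.add (.c 6) (.a))) (.s))) (.w)) (.P)) (.add (.mul (.mul (.c 2) (.pow (.u) 2)) (.d)) (.mul (.mul (.c (-4)) (.pow (.t) 2)) (.d)))),
    .c 0,
    .mul (.c (-1)) (.mul (.mul (.mul (.mul (.mul (.c 2) (.a)) (.add (.c 6) (.a))) (.w)) (.pow (.P) 2)) (.add (.mul (.mul (.c 2) (.pow (.u) 2)) (.d)) (.mul (.mul (.c (-4)) (.pow (.t) 2)) (.d)))),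
    .c 0⟩

/-- free value column 160 -/
def vf160 : VFz := ⟨⟨6, 1, 3, 0, 0⟩, [-28014811825408, 149047329769120, -328202219789232, 383578159283920, -252639382872640, 90517694933616, -14606344747536, 319575248160],
    .mul (.c (-1)) (.mul (.mul (.mul (.add (.mul (.sub (.c (-6)) (.mul (.c 2) (.a))) (.P)) (.mul (.mul (.mul (.c 12) (.a)) (.add (.c 6) (.a))) (.s))) (.w)) (.P)) (.mul (.c 6) (.t))),
    .c 0,
    .mul (.c (-1)) (.mul (.mul (.mul (.mul (.mul (.c 2) (.a)) (.add (.c 6) (.a))) (.w)) (.pow (.P) 2)) (.mul (.c 6) (.t))),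
    .c 0⟩

/-- free value column 161 -/
def vf161 : VFz := ⟨⟨6, 1, 4, 0, 0⟩, [0, -51397136338860, 300763221024690, -611285570673640, 448370806631430, 14532994006020, -101111262946286],
    .mul (.c (-1)) (.mul (.mul (.mul (.add (.mul (.sub (.c (-6)) (.mul (.c 2) (.a))) (.P)) (.mul (.mul (.mul (.c 12) (.a)) (.add (.c 6) (.a))) (.s))) (.w)) (.P)) (.add (.mul (.c 2) (.pow (.u) 2)) (.mul (.c 12) (.pow (.t) 2)))),
    .c 0,
    .mul (.c (-1)) (.mul (.mul (.mul (.mul (.mul (.c 2) (.a)) (.add (.c 6) (.a))) (.w)) (.pow (.P) 2)) (.add (.mul (.c 2) (.pow (.u) 2)) (.mul (.c 12) (.pow (.t) 2)))),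
    .c 0⟩

/-- free value column 162 -/
def vf162 : VFz := ⟨⟨6, 1, 4, 0, 1⟩, [0, 3454388560476, -11839110377850, -14443312012560, 95717567477340, -110551113012888, 37710330812428],
    .mul (.c (-1)) (.mul (.mul (.mul (.add (.mul (.sub (.c (-6)) (.mul (.c 2) (.a))) (.P)) (.mul (.mul (.mul (.c 12) (.a)) (.add (.c 6) (.a))) (.s))) (.w)) (.P)) (.add (.mul (.mul (.c 2) (.pow (.u) 2)) (.d)) (.mul (.mul (.c 12) (.pow (.t) 2)) (.d)))),
    .c 0,
    .mul (.c (-1)) (.mul (.mul (.mul (.mul (.mul (.c 2) (.a)) (.add (.c 6) (.a))) (.w)) (.pow (.P) 2)) (.add (.mul (.mul (.c 2) (.pow (.u) 2)) (.d)) (.mul (.mul (.c 12) (.pow (.t) 2)) (.d)))),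
    .c 0⟩

/-- free value column 163 -/
def vf163 : VFz := ⟨⟨6, 2, 0, 0, 0⟩, [6390946490656, -38371024538624, 97585027139920, -136108225762272, 112610999673120, -55760375926944, 15772222953648, -2206751001984, 87180972480],
    .c 0,
    .c 0,
    .c 0,
    .c 0⟩

/-- free value column 164 -/
def vf164 : VFz := ⟨⟨6, 2, 1, 0, 0⟩, [-23462661428288, 138019730226784, -325855362000944, 392397780689728, -248799408022880, 72992500367488, -3792818459840, -1487783695424, -11977676624],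
    .c 0,
    .c 0,
    .c 0,
    .c 0⟩

/-- free value column 165 -/
def vf165 : VFz := ⟨⟨6, 2, 1, 1, 0⟩, [28014811825408, -149047329769120, 328202219789232, -383578159283920, 252639382872640, -90517694933616, 14606344747536, -319575248160],
    .mul (.c (-1)) (.mul (.mul (.mul (.add (.mul (.sub (.c (-6)) (.mul (.c 2) (.a))) (.P)) (.mul (.mul (.mul (.c 12) (.a)) (.add (.c 6) (.a))) (.s))) (.pow (.w) 2)) (.P)) (.c (-2))),
    .c 0,
    .mul (.c (-1)) (.mul (.mul (.mul (.mul (.mul (.c 2) (.a)) (.add (.c 6) (.a))) (.pow (.w) 2)) (.pow (.P) 2)) (.c (-2))),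
    .c 0⟩

/-- free value column 166 -/
def vf166 : VFz := ⟨⟨6, 2, 2, 0, 0⟩, [28014811825408, -149047329769120, 328202219789232, -383578159283920, 252639382872640, -90517694933616, 14606344747536, -319575248160],
    .mul (.c (-1)) (.mul (.mul (.mul (.add (.mul (.sub (.c (-6)) (.mul (.c 2) (.a))) (.P)) (.mul (.mul (.mul (.c 12) (.a)) (.add (.c 6) (.a))) (.s))) (.pow (.w) 2)) (.P)) (.c 2)),
    .c 0,
    .mul (.c (-1)) (.mul (.mul (.mul (.mul (.mul (.c 2) (.a)) (.add (.c 6) (.a))) (.pow (.w) 2)) (.pow (.P) 2)) (.c 2)),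
    .c 0⟩

/-- free value column 167 -/
def vf167 : VFz := ⟨⟨6, 2, 2, 2, 0⟩, [0, 434766417876, -69360372038340, 379975268367000, -773087096509140, 684477275218020, -223595651136392],
    .mul (.c (-1)) (.mul (.mul (.mul (.add (.mul (.sub (.c (-6)) (.mul (.c 2) (.a))) (.P)) (.mul (.mul (.mul (.c 12) (.a)) (.add (.c 6) (.a))) (.s))) (.pow (.w) 2)) (.P)) (.add (.mul (.c 2) (.pow (.u) 2)) (.mul (.c (-4)) (.pow (.t) 2)))),
    .c 0,
    .mul (.c (-1)) (.mul (.mul (.mul (.mul (.mul (.c 2) (.a)) (.add (.c 6) (.a))) (.pow (.w) 2)) (.pow (.P) 2)) (.add (.mul (.c 2) (.pow (.u) 2)) (.mul (.c (-4)) (.pow (.t) 2)))),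
    .c 0⟩

/-- free value column 168 -/
def vf168 : VFz := ⟨⟨6, 2, 2, 2, 1⟩, [0, 82969663536, 5846634453060, -42860713480800, 89502390805290, -71738153529480, 19108553959510],
    .mul (.c (-1)) (.mul (.mul (.mul (.add (.mul (.sub (.c (-6)) (.mul (.c 2) (.a))) (.P)) (.mul (.mul (.mul (.c 12) (.a)) (.add (.c 6) (.a))) (.s))) (.pow (.w) 2)) (.P)) (.add (.mul (.mul (.c 2) (.pow (.u) 2)) (.d)) (.mul (.mul (.c (-4)) (.pow (.t) 2)) (.d)))),
    .c 0,
    .mul (.c (-1)) (.mul (.mul (.mul (.mul (.mul (.c 2) (.a)) (.add (.c 6) (.a))) (.pow (.w) 2)) (.pow (.P) 2)) (.add (.mul (.mul (.c 2) (.pow (.u) 2)) (.d)) (.mul (.mul (.c (-4)) (.pow (.t) 2)) (.d)))),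
    .c 0⟩

/-- free value column 169 -/
def vf169 : VFz := ⟨⟨6, 2, 4, 0, 0⟩, [0, -434766417876, 69360372038340, -379975268367000, 773087096509140, -684477275218020, 223595651136392],
    .mul (.c (-1)) (.mul (.mul (.mul (.add (.mul (.sub (.c (-6)) (.mul (.c 2) (.a))) (.P)) (.mul (.mul (.mul (.c 12) (.a)) (.add (.c 6) (.a))) (.s))) (.pow (.w) 2)) (.P)) (.add (.mul (.c 2) (.pow (.u) 2)) (.mul (.c 12) (.pow (.t) 2)))),
    .c 0,
    .mul (.c (-1)) (.mul (.mul (.mul (.mul (.mul (.c 2) (.a)) (.add (.c 6) (.a))) (.pow (.w) 2)) (.pow (.P) 2)) (.add (.mul (.c 2) (.pow (.u) 2)) (.mul (.c 12) (.pow (.t) 2)))),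
    .c 0⟩

/-- free value column 170 -/
def vf170 : VFz := ⟨⟨6, 2, 4, 0, 1⟩, [0, -82969663536, -5846634453060, 42860713480800, -89502390805290, 71738153529480, -19108553959510],
    .mul (.c (-1)) (.mul (.mul (.mul (.add (.mul (.sub (.c (-6)) (.mul (.c 2) (.a))) (.P)) (.mul (.mul (.mul (.c 12) (.a)) (.add (.c 6) (.a))) (.s))) (.pow (.w) 2)) (.P)) (.add (.mul (.mul (.c 2) (.pow (.u) 2)) (.d)) (.mul (.mul (.c 12) (.pow (.t) 2)) (.d)))),
    .c 0,
    .mul (.c (-1)) (.mul (.mul (.mul (.mul (.mul (.c 2) (.a)) (.add (.c 6) (.a))) (.pow (.w) 2)) (.pow (.P) 2)) (.add (.mul (.mul (.c 2) (.pow (.u) 2)) (.d)) (.mul (.mul (.c 12) (.pow (.t) 2)) (.d)))),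
    .c 0⟩

/-- free value column 171 -/
def vf171 : VFz := ⟨⟨6, 3, 2, 2, 0⟩, [0, -94813033908, 5392700925690, -16895852259760, -7994383631580, 59820691416720, -40115684893014],
    .mul (.c (-1)) (.mul (.mul (.mul (.add (.mul (.sub (.c (-6)) (.mul (.c 2) (.a))) (.P)) (.mul (.mul (.mul (.c 12) (.a)) (.add (.c 6) (.a))) (.s))) (.pow (.w) 3)) (.P)) (.add (.mul (.c 2) (.pow (.u) 2)) (.mul (.c (-4)) (.pow (.t) 2)))),
    .c 0,
    .mul (.c (-1)) (.mul (.mul (.mul (.mul (.mul (.c 2) (.a)) (.add (.c 6) (.a))) (.pow (.w) 3)) (.pow (.P) 2)) (.add (.mul (.c 2) (.pow (.u) 2)) (.mul (.c (-4)) (.pow (.t) 2)))),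
    .c 0⟩

/-- free value column 172 -/
def vf172 : VFz := ⟨⟨6, 3, 2, 2, 1⟩, [0, 92463974676, -1090111784580, 11528293799440, -24918589549800, 15306637570884, -832241976262],
    .mul (.c (-1)) (.mul (.mul (.mul (.add (.mul (.sub (.c (-6)) (.mul (.c 2) (.a))) (.P)) (.mul (.mul (.mul (.c 12) (.a)) (.add (.c 6) (.a))) (.s))) (.pow (.w) 3)) (.P)) (.add (.mul (.mul (.c 2) (.pow (.u) 2)) (.d)) (.mul (.mul (.c (-4)) (.pow (.t) 2)) (.d)))),
    .c 0,
    .mul (.c (-1)) (.mul (.mul (.mul (.mul (.mul (.c 2) (.a)) (.add (.c 6) (.a))) (.pow (.w) 3)) (.pow (.P) 2)) (.add (.mul (.mul (.c 2) (.pow (.u) 2)) (.d)) (.mul (.mul (.c (-4)) (.pow (.t) 2)) (.d)))),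
    .c 0⟩

/-- free value column 173 -/
def vf173 : VFz := ⟨⟨6, 3, 4, 0, 0⟩, [0, 94813033908, -5392700925690, 16895852259760, 7994383631580, -59820691416720, 40115684893014],
    .mul (.c (-1)) (.mul (.mul (.mul (.add (.mul (.sub (.c (-6)) (.mul (.c 2) (.a))) (.P)) (.mul (.mul (.mul (.c 12) (.a)) (.add (.c 6) (.a))) (.s))) (.pow (.w) 3)) (.P)) (.add (.mul (.c 2) (.pow (.u) 2)) (.mul (.c 12) (.pow (.t) 2)))),
    .c 0,
    .mul (.c (-1)) (.mul (.mul (.mul (.mul (.mul (.c 2) (.a)) (.add (.c 6) (.a))) (.pow (.w) 3)) (.pow (.P) 2)) (.add (.mul (.c 2) (.pow (.u) 2)) (.mul (.c 12) (.pow (.t) 2)))),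
    .c 0⟩

/-- free value column 174 -/
def vf174 : VFz := ⟨⟨6, 3, 4, 0, 1⟩, [0, -92463974676, 1090111784580, -11528293799440, 24918589549800, -15306637570884, 832241976262],
    .mul (.c (-1)) (.mul (.mul (.mul (.add (.mul (.sub (.c (-6)) (.mul (.c 2) (.a))) (.P)) (.mul (.mul (.mul (.c 12) (.a)) (.add (.c 6) (.a))) (.s))) (.pow (.w) 3)) (.P)) (.add (.mul (.mul (.c 2) (.pow (.u) 2)) (.d)) (.mul (.mul (.c 12) (.pow (.t) 2)) (.d)))),
    .c 0,
    .mul (.c (-1)) (.mul (.mul (.mul (.mul (.mul (.c 2) (.a)) (.add (.c 6) (.a))) (.pow (.w) 3)) (.pow (.P) 2)) (.add (.mul (.mul (.c 2) (.pow (.u) 2)) (.d)) (.mul (.mul (.c 12) (.pow (.t) 2)) (.d)))),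
    .c 0⟩

/-- free value column 175 -/
def vf175 : VFz := ⟨⟨7, 0, 0, 0, 0⟩, [-1222888431744, 7882026280512, -21842498986992, 33876828134864, -32013079727760, 18743935382160, -6564885845776, 1229146914288, -87669439728, -914279824],
    .c 0,
    .c 0,
    .c 0,
    .c 0⟩

/-- free value column 176 -/
def vf176 : VFz := ⟨⟨7, 0, 0, 0, 1⟩, [2445776863488, -15764052561024, 43684997973984, -67753656269728, 64026159455520, -37487870764320, 13129771691552, -2458293828576, 175338879456, 1828559648],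
    .c 0,
    .c 0,
    .c 0,
    .c 0⟩

/-- free value column 177 -/
def vf177 : VFz := ⟨⟨7, 0, 0, 0, 2⟩, [-1222888431744, 7882026280512, -21842498986992, 33876828134864, -32013079727760, 18743935382160, -6564885845776, 1229146914288, -87669439728, -914279824],
    .c 0,
    .mul (.c (-1)) (.mul (.add (.mul (.sub (.c (-6)) (.mul (.c 2) (.a))) (.P)) (.mul (.mul (.mul (.c 14) (.a)) (.add (.c 6) (.a))) (.s))) (.c 2)),
    .c 0,
    .mul (.c (-1)) (.mul (.mul (.mul (.mul (.c 2) (.a)) (.add (.c 6) (.a))) (.P)) (.c 2))⟩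

/-- free value column 178 -/
def vf178 : VFz := ⟨⟨7, 0, 1, 0, 0⟩, [1701836349952, -10416734081376, 23232176675376, -20339888596752, -2373968140320, 17538901983552, -12355653925680, 3198295727568, -183956556384, -1009435936],
    .c 0,
    .c 0,
    .c 0,
    .c 0⟩

/-- free value column 179 -/
def vf179 : VFz := ⟨⟨7, 0, 1, 0, 1⟩, [-5849449563392, 36597520723776, -90149351324736, 108433433463232, -59278223174880, 2410066797216, 11581536159808, -3938297626560, 192574233312, 190312224],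
    .c 0,
    .c 0,
    .c 0,
    .c 0⟩

/-- free value column 180 -/
def vf180 : VFz := ⟨⟨7, 0, 1, 0, 2⟩, [4147613213440, -26180786642400, 66917174649360, -88093544866480, 61652191315200, -19948968780768, 774117765872, 740001898992, -8617676928, 819123712],
    .c 0,
    .mul (.c (-1)) (.mul (.add (.mul (.sub (.c (-6)) (.mul (.c 2) (.a))) (.P)) (.mul (.mul (.mul (.c 14) (.a)) (.add (.c 6) (.a))) (.s))) (.mul (.c 2) (.t))),
    .c 0,
    .mul (.c (-1)) (.mul (.mul (.mul (.mul (.c 2) (.a)) (.add (.c 6) (.a))) (.P)) (.mul (.c 2) (.t)))⟩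

/-- free value column 181 -/
def vf181 : VFz := ⟨⟨7, 0, 1, 1, 0⟩, [-12517907154104, 64998675930912, 84255829384368, -765000844589656, 1276527453549920, -714892821195544, -143167831628424, 289526446986120, -79729363267392, 361983800],
    .mul (.c (-1)) (.mul (.add (.mul (.sub (.c (-6)) (.mul (.c 2) (.a))) (.P)) (.mul (.mul (.mul (.c 14) (.a)) (.add (.c 6) (.a))) (.s))) (.c (-2))),
    .c 0,
    .mul (.c (-1)) (.mul (.mul (.mul (.mul (.c 2) (.a)) (.add (.c 6) (.a))) (.P)) (.c (-2))),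
    .c 0⟩

/-- free value column 182 -/
def vf182 : VFz := ⟨⟨7, 0, 1, 1, 1⟩, [28671289664648, -254581549068432, 864255683818200, -1454698253415056, 1200504542257800, -232483363879488, -378875063688720, 293838921188912, -66631387754152, -819123712],
    .mul (.c (-1)) (.mul (.add (.mul (.sub (.c (-6)) (.mul (.c 2) (.a))) (.P)) (.mul (.mul (.mul (.c 14) (.a)) (.add (.c 6) (.a))) (.s))) (.mul (.c (-2)) (.d))),
    .c 0,
    .mul (.c (-1)) (.mul (.mul (.mul (.mul (.c 2) (.a)) (.add (.c 6) (.a))) (.P)) (.mul (.c (-2)) (.d))),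
    .c 0⟩

/-- free value column 183 -/
def vf183 : VFz := ⟨⟨7, 0, 1, 1, 2⟩, [-6594800997344, 37050356116768, -88257167292584, 114975049612720, -87616657951400, 38227052631280, -8292886307032, 444917379104, 64136808488],
    .mul (.c (-1)) (.mul (.add (.mul (.sub (.c (-6)) (.mul (.c 2) (.a))) (.P)) (.mul (.mul (.mul (.c 14) (.a)) (.add (.c 6) (.a))) (.s))) (.mul (.c (-2)) (.pow (.d) 2))),
    .mul (.c (-1)) (.mul (.add (.mul (.sub (.c (-6)) (.mul (.c 2) (.a))) (.P)) (.mul (.mul (.mul (.c 14) (.a)) (.add (.c 6) (.a))) (.s))) (.mul (.c 2) (.pow (.t) 2))),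
    .mul (.c (-1)) (.mul (.mul (.mul (.mul (.c 2) (.a)) (.add (.c 6) (.a))) (.P)) (.mul (.c (-2)) (.pow (.d) 2))),
    .mul (.c (-1)) (.mul (.mul (.mul (.mul (.c 2) (.a)) (.add (.c 6) (.a))) (.P)) (.mul (.c 2) (.pow (.t) 2)))⟩

/-- free value column 184 -/
def vf184 : VFz := ⟨⟨7, 0, 2, 0, 0⟩, [6400643154552, -35377510701664, -148778313657808, 852640682217000, -1360469466550080, 770192924278728, 121565408700328, -285927461515640, 79752732090784, 361983800],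
    .mul (.c (-1)) (.mul (.add (.mul (.sub (.c (-6)) (.mul (.c 2) (.a))) (.P)) (.mul (.mul (.mul (.c 14) (.a)) (.add (.c 6) (.a))) (.s))) (.c 2)),
    .c 0,
    .mul (.c (-1)) (.mul (.mul (.mul (.mul (.c 2) (.a)) (.add (.c 6) (.a))) (.P)) (.c 2)),
    .c 0⟩

/-- free value column 185 -/
def vf185 : VFz := ⟨⟨7, 0, 2, 0, 1⟩, [-10587312102152, 158741697886160, -645061363946584, 1170985144697136, -973342293082600, 119473090915904, 410498373385104, -297098594503312, 66392075874056, -819123712],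
    .mul (.c (-1)) (.mul (.add (.mul (.sub (.c (-6)) (.mul (.c 2) (.a))) (.P)) (.mul (.mul (.mul (.c 14) (.a)) (.add (.c 6) (.a))) (.s))) (.mul (.c 2) (.d))),
    .c 0,
    .mul (.c (-1)) (.mul (.mul (.mul (.mul (.c 2) (.a)) (.add (.c 6) (.a))) (.P)) (.mul (.c 2) (.d))),
    .c 0⟩

/-- free value column 186 -/
def vf186 : VFz := ⟨⟨7, 0, 2, 0, 2⟩, [-6594800997344, 37050356116768, -88257167292584, 114975049612720, -87616657951400, 38227052631280, -8292886307032, 444917379104, 64136808488],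
    .mul (.c (-1)) (.mul (.add (.mul (.sub (.c (-6)) (.mul (.c 2) (.a))) (.P)) (.mul (.mul (.mul (.c 14) (.a)) (.add (.c 6) (.a))) (.s))) (.mul (.c 2) (.pow (.d) 2))),
    .mul (.c (-1)) (.mul (.add (.mul (.sub (.c (-6)) (.mul (.c 2) (.a))) (.P)) (.mul (.mul (.mul (.c 14) (.a)) (.add (.c 6) (.a))) (.s))) (.mul (.c 2) (.pow (.t) 2))),
    .mul (.c (-1)) (.mul (.mul (.mul (.mul (.c 2) (.a)) (.add (.c 6) (.a))) (.P)) (.mul (.c 2) (.pow (.d) 2))),
    .mul (.c (-1)) (.mul (.mul (.mul (.mul (.c 2) (.a)) (.add (.c 6) (.a))) (.P)) (.mul (.c 2) (.pow (.t) 2)))⟩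

/-- free value column 187 -/
def vf187 : VFz := ⟨⟨7, 0, 2, 1, 0⟩, [-70495098894132, 460201891483560, -1162141710238224, 1361922818895876, -572266342337100, -242182188572928, 285952752238120, -50509237348172, -10483499569784, 614342784],
    .mul (.c (-1)) (.mul (.add (.mul (.sub (.c (-6)) (.mul (.c 2) (.a))) (.P)) (.mul (.mul (.mul (.c 14) (.a)) (.add (.c 6) (.a))) (.s))) (.mul (.c (-2)) (.t))),
    .c 0,
    .mul (.c (-1)) (.mul (.mul (.mul (.mul (.c 2) (.a)) (.add (.c 6) (.a))) (.P)) (.mul (.c (-2)) (.t))),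
    .c 0⟩

/-- free value column 188 -/
def vf188 : VFz := ⟨⟨7, 0, 2, 1, 1⟩, [20470120557936, -85026272061336, 78156955064784, 151203540983256, -421987227243360, 449818609653744, -286412230173420, 117781045019928, -24004541801532],
    .mul (.c (-1)) (.mul (.add (.mul (.sub (.c (-6)) (.mul (.c 2) (.a))) (.P)) (.mul (.mul (.mul (.c 14) (.a)) (.add (.c 6) (.a))) (.s))) (.mul (.mul (.c (-2)) (.t)) (.d))),
    .c 0,
    .mul (.c (-1)) (.mul (.mul (.mul (.mul (.c 2) (.a)) (.add (.c 6) (.a))) (.P)) (.mul (.mul (.c (-2)) (.t)) (.d))),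
    .c 0⟩

/-- free value column 189 -/
def vf189 : VFz := ⟨⟨7, 0, 2, 2, 0⟩, [47520163207284, -381513803946672, 1199312363529138, -1834371124608960, 1348914304536990, -367043512129380, -15775279324078, 2908786129312, 48102606366],
    .mul (.c (-1)) (.mul (.add (.mul (.sub (.c (-6)) (.mul (.c 2) (.a))) (.P)) (.mul (.mul (.mul (.c 14) (.a)) (.add (.c 6) (.a))) (.s))) (.add (.mul (.c 2) (.pow (.u) 2)) (.mul (.c (-4)) (.pow (.t) 2)))),
    .c 0,
    .mul (.c (-1)) (.mul (.mul (.mul (.mul (.c 2) (.a)) (.add (.c 6) (.a))) (.P)) (.add (.mul (.c 2) (.pow (.u) 2)) (.mul (.c (-4)) (.pow (.t) 2)))),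
    .c 0⟩

/-- free value column 190 -/
def vf190 : VFz := ⟨⟨7, 0, 2, 2, 1⟩, [-3315340276068, 20816066349024, -28135123145496, -72140192917340, 273565793872250, -332664707632446, 172504155451818, -30630651701742],
    .mul (.c (-1)) (.mul (.add (.mul (.sub (.c (-6)) (.mul (.c 2) (.a))) (.P)) (.mul (.mul (.mul (.c 14) (.a)) (.add (.c 6) (.a))) (.s))) (.add (.mul (.mul (.c 2) (.pow (.u) 2)) (.d)) (.mul (.mul (.c (-4)) (.pow (.t) 2)) (.d)))),
    .c 0,
    .mul (.c (-1)) (.mul (.mul (.mul (.mul (.c 2) (.a)) (.add (.c 6) (.a))) (.P)) (.add (.mul (.mul (.c 2) (.pow (.u) 2)) (.d)) (.mul (.mul (.c (-4)) (.pow (.t) 2)) (.d)))),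
    .c 0⟩

/-- free value column 191 -/
def vf191 : VFz := ⟨⟨7, 0, 3, 0, 0⟩, [48263508118196, -338181253658888, 876030215717248, -990116165311476, 283451901846700, 375141430317280, -318350179700376, 53028908763580, 10731429126808, 204780928],
    .mul (.c (-1)) (.mul (.add (.mul (.sub (.c (-6)) (.mul (.c 2) (.a))) (.P)) (.mul (.mul (.mul (.c 14) (.a)) (.add (.c 6) (.a))) (.s))) (.mul (.c 6) (.t))),
    .c 0,
    .mul (.c (-1)) (.mul (.mul (.mul (.mul (.c 2) (.a)) (.add (.c 6) (.a))) (.P)) (.mul (.c 6) (.t))),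
    .c 0⟩

/-- free value column 192 -/
def vf192 : VFz := ⟨⟨7, 0, 3, 0, 1⟩, [5909083431440, -63175152405736, 274871714105552, -611103739434136, 772453859048960, -602726820178864, 319583775401548, -119560714536344, 23747994567580],
    .mul (.c (-1)) (.mul (.add (.mul (.sub (.c (-6)) (.mul (.c 2) (.a))) (.P)) (.mul (.mul (.mul (.c 14) (.a)) (.add (.c 6) (.a))) (.s))) (.mul (.mul (.c 6) (.t)) (.d))),
    .c 0,
    .mul (.c (-1)) (.mul (.mul (.mul (.mul (.c 2) (.a)) (.add (.c 6) (.a))) (.P)) (.mul (.mul (.c 6) (.t)) (.d))),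
    .c 0⟩

/-- free value column 193 -/
def vf193 : VFz := ⟨⟨7, 0, 3, 1, 0⟩, [-6594800997344, 37050356116768, -88257167292584, 114975049612720, -87616657951400, 38227052631280, -8292886307032, 444917379104, 64136808488],
    .mul (.c (-1)) (.mul (.add (.mul (.sub (.c (-6)) (.mul (.c 2) (.a))) (.P)) (.mul (.mul (.mul (.c 14) (.a)) (.add (.c 6) (.a))) (.s))) (.mul (.c (-2)) (.pow (.u) 2))),
    .c 0,
    .mul (.c (-1)) (.mul (.mul (.mul (.mul (.c 2) (.a)) (.add (.c 6) (.a))) (.P)) (.mul (.c (-2)) (.pow (.u) 2))),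
    .c 0⟩

/-- free value column 194 -/
def vf194 : VFz := ⟨⟨7, 0, 4, 0, 0⟩, [-54114964204628, 418564160063440, -1287569530821722, 1949346174221680, -1436530962488390, 405270564760660, 7482393017046, -2463868750208, 16034202122],
    .mul (.c (-1)) (.mul (.add (.mul (.sub (.c (-6)) (.mul (.c 2) (.a))) (.P)) (.mul (.mul (.mul (.c 14) (.a)) (.add (.c 6) (.a))) (.s))) (.add (.mul (.c 2) (.pow (.u) 2)) (.mul (.c 12) (.pow (.t) 2)))),
    .c 0,
    .mul (.c (-1)) (.mul (.mul (.mul (.mul (.c 2) (.a)) (.add (.c 6) (.a))) (.P)) (.add (.mul (.c 2) (.pow (.u) 2)) (.mul (.c 12) (.pow (.t) 2)))),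
    .c 0⟩

/-- free value column 195 -/
def vf195 : VFz := ⟨⟨7, 0, 4, 0, 1⟩, [3315340276068, -20816066349024, 28135123145496, 72140192917340, -273565793872250, 332664707632446, -172504155451818, 30630651701742],
    .mul (.c (-1)) (.mul (.add (.mul (.sub (.c (-6)) (.mul (.c 2) (.a))) (.P)) (.mul (.mul (.mul (.c 14) (.a)) (.add (.c 6) (.a))) (.s))) (.add (.mul (.mul (.c 2) (.pow (.u) 2)) (.d)) (.mul (.mul (.c 12) (.pow (.t) 2)) (.d)))),
    .c 0,
    .mul (.c (-1)) (.mul (.mul (.mul (.mul (.c 2) (.a)) (.add (.c 6) (.a))) (.P)) (.add (.mul (.mul (.c 2) (.pow (.u) 2)) (.d)) (.mul (.mul (.c 12) (.pow (.t) 2)) (.d)))),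
    .c 0⟩

/-- free value column 196 -/
def vf196 : VFz := ⟨⟨7, 1, 0, 0, 0⟩, [2445776863488, -15764052561024, 43684997973984, -67753656269728, 64026159455520, -37487870764320, 13129771691552, -2458293828576, 175338879456, 1828559648],
    .c 0,
    .c 0,
    .c 0,
    .c 0⟩

/-- free value column 197 -/
def vf197 : VFz := ⟨⟨7, 1, 0, 0, 1⟩, [-2445776863488, 15764052561024, -43684997973984, 67753656269728, -64026159455520, 37487870764320, -13129771691552, 2458293828576, -175338879456, -1828559648],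
    .c 0,
    .c 0,
    .c 0,
    .c 0⟩

/-- free value column 198 -/
def vf198 : VFz := ⟨⟨7, 1, 1, 0, 0⟩, [-5849449563392, 36597520723776, -90149351324736, 108433433463232, -59278223174880, 2410066797216, 11581536159808, -3938297626560, 192574233312, 190312224],
    .c 0,
    .c 0,
    .c 0,
    .c 0⟩

/-- free value column 199 -/
def vf199 : VFz := ⟨⟨7, 1, 1, 0, 1⟩, [8295226426880, -52361573284800, 133834349298720, -176187089732960, 123304382630400, -39897937561536, 1548235531744, 1480003797984, -17235353856, 1638247424],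
    .c 0,
    .c 0,
    .c 0,
    .c 0⟩

/-- free value column 200 -/
def vf200 : VFz := ⟨⟨7, 1, 1, 1, 0⟩, [9041988781248, -47919925591136, 109597159935808, -141856554358960, 113581124587600, -56505136481792, 15811654848192, -1629836657200, -119655940048, -819123712],
    .mul (.c (-1)) (.mul (.mul (.add (.mul (.sub (.c (-6)) (.mul (.c 2) (.a))) (.P)) (.mul (.mul (.mul (.c 14) (.a)) (.add (.c 6) (.a))) (.s))) (.w)) (.c (-2))),
    .c 0,
    .mul (.c (-1)) (.mul (.mul (.mul (.mul (.mul (.c 2) (.a)) (.add (.c 6) (.a))) (.w)) (.P)) (.c (-2))),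
    .c 0⟩

/-- free value column 201 -/
def vf201 : VFz := ⟨⟨7, 1, 1, 1, 1⟩, [-13189601994688, 74100712233536, -176514334585168, 229950099225440, -175233315902800, 76454105262560, -16585772614064, 889834758208, 128273616976],
    .mul (.c (-1)) (.mul (.mul (.add (.mul (.sub (.c (-6)) (.mul (.c 2) (.a))) (.P)) (.mul (.mul (.mul (.c 14) (.a)) (.add (.c 6) (.a))) (.s))) (.w)) (.mul (.c (-2)) (.d))),
    .c 0,
    .mul (.c (-1)) (.mul (.mul (.mul (.mul (.mul (.c 2) (.a)) (.add (.c 6) (.a))) (.w)) (.P)) (.mul (.c (-2)) (.d))),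
    .c 0⟩

/-- free value column 202 -/
def vf202 : VFz := ⟨⟨7, 1, 2, 0, 0⟩, [9041988781248, -47919925591136, 109597159935808, -141856554358960, 113581124587600, -56505136481792, 15811654848192, -1629836657200, -119655940048, -819123712],
    .mul (.c (-1)) (.mul (.mul (.add (.mul (.sub (.c (-6)) (.mul (.c 2) (.a))) (.P)) (.mul (.mul (.mul (.c 14) (.a)) (.add (.c 6) (.a))) (.s))) (.w)) (.c 2)),
    .c 0,
    .mul (.c (-1)) (.mul (.mul (.mul (.mul (.mul (.c 2) (.a)) (.add (.c 6) (.a))) (.w)) (.P)) (.c 2)),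
    .c 0⟩

/-- free value column 203 -/
def vf203 : VFz := ⟨⟨7, 1, 2, 0, 1⟩, [-13189601994688, 74100712233536, -176514334585168, 229950099225440, -175233315902800, 76454105262560, -16585772614064, 889834758208, 128273616976],
    .mul (.c (-1)) (.mul (.mul (.add (.mul (.sub (.c (-6)) (.mul (.c 2) (.a))) (.P)) (.mul (.mul (.mul (.c 14) (.a)) (.add (.c 6) (.a))) (.s))) (.w)) (.mul (.c 2) (.d))),
    .c 0,
    .mul (.c (-1)) (.mul (.mul (.mul (.mul (.mul (.c 2) (.a)) (.add (.c 6) (.a))) (.w)) (.P)) (.mul (.c 2) (.d))),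
    .c 0⟩

/-- free value column 204 -/
def vf204 : VFz := ⟨⟨7, 1, 2, 1, 0⟩, [19784402992032, -111151068350304, 264771501877752, -344925148838160, 262849973854200, -114681157893840, 24878658921096, -1334752137312, -192410425464],
    .mul (.c (-1)) (.mul (.mul (.add (.mul (.sub (.c (-6)) (.mul (.c 2) (.a))) (.P)) (.mul (.mul (.mul (.c 14) (.a)) (.add (.c 6) (.a))) (.s))) (.w)) (.mul (.c (-2)) (.t))),
    .c 0,
    .mul (.c (-1)) (.mul (.mul (.mul (.mul (.mul (.c 2) (.a)) (.add (.c 6) (.a))) (.w)) (.P)) (.mul (.c (-2)) (.t))),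
    .c 0⟩

/-- free value column 205 -/
def vf205 : VFz := ⟨⟨7, 1, 3, 0, 0⟩, [6594800997344, -37050356116768, 88257167292584, -114975049612720, 87616657951400, -38227052631280, 8292886307032, -444917379104, -64136808488],
    .mul (.c (-1)) (.mul (.mul (.add (.mul (.sub (.c (-6)) (.mul (.c 2) (.a))) (.P)) (.mul (.mul (.mul (.c 14) (.a)) (.add (.c 6) (.a))) (.s))) (.w)) (.mul (.c 6) (.t))),
    .c 0,
    .mul (.c (-1)) (.mul (.mul (.mul (.mul (.mul (.c 2) (.a)) (.add (.c 6) (.a))) (.w)) (.P)) (.mul (.c 6) (.t))),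
    .c 0⟩

/-- free value column 206 -/
def vf206 : VFz := ⟨⟨7, 2, 0, 0, 0⟩, [-1222888431744, 7882026280512, -21842498986992, 33876828134864, -32013079727760, 18743935382160, -6564885845776, 1229146914288, -87669439728, -914279824],
    .c 0,
    .c 0,
    .c 0,
    .c 0⟩

/-- free value column 207 -/
def vf207 : VFz := ⟨⟨7, 2, 1, 0, 0⟩, [4147613213440, -26180786642400, 66917174649360, -88093544866480, 61652191315200, -19948968780768, 774117765872, 740001898992, -8617676928, 819123712],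
    .c 0,
    .c 0,
    .c 0,
    .c 0⟩

/-- free value column 208 -/
def vf208 : VFz := ⟨⟨7, 2, 1, 1, 0⟩, [-6594800997344, 37050356116768, -88257167292584, 114975049612720, -87616657951400, 38227052631280, -8292886307032, 444917379104, 64136808488],
    .mul (.c (-1)) (.mul (.mul (.add (.mul (.sub (.c (-6)) (.mul (.c 2) (.a))) (.P)) (.mul (.mul (.mul (.c 14) (.a)) (.add (.c 6) (.a))) (.s))) (.pow (.w) 2)) (.c (-2))),
    .c 0,
    .mul (.c (-1)) (.mul (.mul (.mul (.mul (.mul (.c 2) (.a)) (.add (.c 6) (.a))) (.pow (.w) 2)) (.P)) (.c (-2))),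
    .c 0⟩

/-- free value column 209 -/
def vf209 : VFz := ⟨⟨7, 2, 2, 0, 0⟩, [-6594800997344, 37050356116768, -88257167292584, 114975049612720, -87616657951400, 38227052631280, -8292886307032, 444917379104, 64136808488],
    .mul (.c (-1)) (.mul (.mul (.add (.mul (.sub (.c (-6)) (.mul (.c 2) (.a))) (.P)) (.mul (.mul (.mul (.c 14) (.a)) (.add (.c 6) (.a))) (.s))) (.pow (.w) 2)) (.c 2)),
    .c 0,
    .mul (.c (-1)) (.mul (.mul (.mul (.mul (.mul (.c 2) (.a)) (.add (.c 6) (.a))) (.pow (.w) 2)) (.P)) (.c 2)),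
    .c 0⟩

/-- free row column 0 -/
def rf0 : RFz := ⟨⟨0, 4, 0, [(0, 1)]⟩, [-1083234074880, 1991021831424, 1099858950912, -3974482556928, 1966847730432],
    .mul (.pow (.P) 3) (.mul (.c (-96)) (.T)),
    .c 0⟩

/-- free row column 1 -/
def rf1 : RFz := ⟨⟨0, 4, 1, [(0, 1)]⟩, [0, 2091451363200, -3680094788352, 1823557860864, -234967900032],
    .mul (.pow (.P) 3) (.mul (.mul (.c 96) (.T)) (.t)),
    .c 0⟩

/-- free row column 2 -/
def rf2 : RFz := ⟨⟨0, 5, 0, [(0, 1)]⟩, [1855401315840, -3519668968704, -343379054592, 3974482556928, -2123481116160, 156645266688],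
    .mul (.pow (.P) 2) (.mul (.c (-120)) (.T)),
    .c 0⟩

/-- free row column 3 -/
def rf3 : RFz := ⟨⟨0, 5, 1, [(0, 1)]⟩, [0, 1553134232064, -2460957631488, -1263092149248, 3683875341312, -1512959792640],
    .mul (.pow (.P) 2) (.mul (.mul (.c 120) (.T)) (.t)),
    .c 0⟩

/-- free row column 4 -/
def rf4 : RFz := ⟨⟨0, 5, 2, [(0, 1)]⟩, [0, 0, -82489898530560, 172510293335040, -82659338532864, -7362327534336],
    .mul (.pow (.P) 2) (.add (.add (.add (.add (.add (.add (.mul (.mul (.c 4) (.P)) (.v)) (.mul (.mul (.c 4) (.P)) (.t))) (.mul (.mul (.c (-14)) (.P)) (.s))) (.mul (.mul (.c (-120)) (.T)) (.pow (.u) 2))) (.mul (.mul (.c 240) (.T)) (.pow (.t) 2))) (.mul (.mul (.c 10) (.T)) (.w))) (.mul (.mul (.mul (.c 10) (.T)) (.w)) (.s))),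
    .c 0⟩

/-- free row column 5 -/
def rf5 : RFz := ⟨⟨0, 5, 3, [(0, 1)]⟩, [0, 0, 0, 6367408197120, -20891180634624, 14524414009344],
    .mul (.pow (.P) 2) (.add (.add (.add (.add (.add (.add (.mul (.mul (.mul (.c 6) (.P)) (.t)) (.v)) (.mul (.mul (.c 6) (.P)) (.pow (.t) 2))) (.mul (.mul (.mul (.c (-54)) (.P)) (.s)) (.t))) (.mul (.mul (.mul (.c (-120)) (.T)) (.t)) (.pow (.u) 2))) (.mul (.mul (.c 240) (.T)) (.pow (.t) 3))) (.mul (.mul (.mul (.c 30) (.T)) (.w)) (.t))) (.mul (.mul (.mul (.mul (.c 30) (.T)) (.w)) (.s)) (.t))),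
    .c 0⟩

/-- free row column 6 -/
def rf6 : RFz := ⟨⟨0, 6, 0, [(0, 1)]⟩, [-772167240960, 1528647137280, -756479896320, 0, 772167240960, -1528647137280, 756479896320],
    .mul (.P) (.mul (.c (-144)) (.T)),
    .c 0⟩

/-- free row column 7 -/
def rf7 : RFz := ⟨⟨0, 6, 1, [(0, 1)]⟩, [0, -3088668963840, 6114588549120, 62749378560, -6114588549120, 3025919585280],
    .mul (.P) (.mul (.mul (.c 144) (.T)) (.t)),
    .c 0⟩

/-- free row column 8 -/
def rf8 : RFz := ⟨⟨0, 6, 2, [(0, 1)]⟩, [0, 0, 26893857181440, -62447699450880, 17926704837120, 44103933803520, -26476796371200],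
    .mul (.P) (.add (.add (.add (.add (.add (.add (.mul (.mul (.c 4) (.P)) (.v)) (.mul (.mul (.c 4) (.P)) (.t))) (.mul (.mul (.c (-14)) (.P)) (.s))) (.mul (.mul (.c (-144)) (.T)) (.pow (.u) 2))) (.mul (.mul (.c 288) (.T)) (.pow (.t) 2))) (.mul (.mul (.c 12) (.T)) (.w))) (.mul (.mul (.mul (.c 12) (.T)) (.w)) (.s))),
    .c 0⟩

/-- free row column 9 -/
def rf9 : RFz := ⟨⟨0, 6, 3, [(0, 1)]⟩, [0, 0, 0, 18532013783040, -36687531294720, 18155517511680],
    .mul (.P) (.add (.add (.add (.add (.add (.add (.mul (.mul (.mul (.c 6) (.P)) (.t)) (.v)) (.mul (.mul (.c 6) (.P)) (.pow (.t) 2))) (.mul (.mul (.mul (.c (-54)) (.P)) (.s)) (.t))) (.mul (.mul (.mul (.c (-144)) (.T)) (.t)) (.pow (.u) 2))) (.mul (.mul (.c 288) (.T)) (.pow (.t) 3))) (.mul (.mul (.mul (.c 36) (.T)) (.w)) (.t))) (.mul (.mul (.mul (.mul (.c 36) (.T)) (.w)) (.s)) (.t))),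
    .c 0⟩

/-- free row column 10 -/
def rf10 : RFz := ⟨⟨0, 6, 4, [(0, 1)]⟩, [0, 0, 0, 0, 73072085114880, -218310522347520, 145244140093440],
    .mul (.P) (.add (.add (.add (.add (.add (.add (.add (.add (.add (.add (.mul (.mul (.mul (.c 8) (.P)) (.pow (.u) 2)) (.v)) (.mul (.mul (.mul (.c 8) (.P)) (.t)) (.pow (.u) 2))) (.mul (.mul (.mul (.c (-14)) (.P)) (.s)) (.pow (.u) 2))) (.mul (.mul (.mul (.c (-132)) (.P)) (.s)) (.pow (.t) 2))) (.mul (.mul (.c (-144)) (.T)) (.pow (.u) 4))) (.mul (.mul (.mul (.c 144) (.T)) (.pow (.t) 2)) (.pow (.u) 2))) (.mul (.mul (.c 144) (.T)) (.pow (.t) 4))) (.mul (.mul (.mul (.c 12) (.T)) (.w)) (.pow (.u) 2))) (.mul (.mul (.mul (.c 72) (.T)) (.w)) (.pow (.t) 2))) (.mul (.mul (.mul (.mul (.c 12) (.T)) (.w)) (.s)) (.pow (.u) 2))) (.mul (.mul (.mul (.mul (.c 72) (.T)) (.w)) (.s)) (.pow (.t) 2))),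
    .c 0⟩

/-- free row column 11 -/
def rf11 : RFz := ⟨⟨0, 7, 2, [(0, 1)]⟩, [0, 0, 55596041349120, -110062593884160, -1129488814080, 110062593884160, -54466552535040],
    .add (.add (.add (.add (.add (.add (.mul (.mul (.c 4) (.P)) (.v)) (.mul (.mul (.c 4) (.P)) (.t))) (.mul (.mul (.c (-14)) (.P)) (.s))) (.mul (.mul (.c (-168)) (.T)) (.pow (.u) 2))) (.mul (.mul (.c 336) (.T)) (.pow (.t) 2))) (.mul (.mul (.c 14) (.T)) (.w))) (.mul (.mul (.mul (.c 14) (.T)) (.w)) (.s)),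
    .c 0⟩

/-- free row column 12 -/
def rf12 : RFz := ⟨⟨0, 7, 4, [(0, 1)]⟩, [0, 0, 0, 0, 222384165396480, -440250375536640, 217866210140160],
    .add (.add (.add (.add (.add (.add (.add (.add (.add (.add (.mul (.mul (.mul (.c 8) (.P)) (.pow (.u) 2)) (.v)) (.mul (.mul (.mul (.c 8) (.P)) (.t)) (.pow (.u) 2))) (.mul (.mul (.mul (.c (-14)) (.P)) (.s)) (.pow (.u) 2))) (.mul (.mul (.mul (.c (-132)) (.P)) (.s)) (.pow (.t) 2))) (.mul (.mul (.c (-168)) (.T)) (.pow (.u) 4))) (.mul (.mul (.mul (.c 168) (.T)) (.pow (.t) 2)) (.pow (.u) 2))) (.mul (.mul (.c 168) (.T)) (.pow (.t) 4))) (.mul (.mul (.mul (.c 14) (.T)) (.w)) (.pow (.u) 2))) (.mul (.mul (.mul (.c 84) (.T)) (.w)) (.pow (.t) 2))) (.mul (.mul (.mul (.mul (.c 14) (.T)) (.w)) (.s)) (.pow (.u) 2))) (.mul (.mul (.mul (.mul (.c 84) (.T)) (.w)) (.s)) (.pow (.t) 2)),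
    .c 0⟩

/-- free row column 13 -/
def rf13 : RFz := ⟨⟨0, 4, 0, [(1, 1)]⟩, [0, -311066833920, 462374694144, 357762524352, -509097116736],
    .mul (.pow (.P) 3) (.add (.mul (.c (-24)) (.P)) (.mul (.mul (.c (-96)) (.T)) (.s))),
    .c 0⟩

/-- free row column 14 -/
def rf14 : RFz := ⟨⟨0, 5, 2, [(1, 1)]⟩, [0, 0, 0, 10273116085440, -60500271359808, 50230265115648],
    .mul (.pow (.P) 2) (.add (.add (.add (.add (.add (.add (.add (.add (.add (.add (.mul (.mul (.c (-24)) (.P)) (.pow (.u) 2)) (.mul (.mul (.c 48) (.P)) (.pow (.t) 2))) (.mul (.mul (.mul (.c 4) (.P)) (.s)) (.v))) (.mul (.mul (.mul (.c 4) (.P)) (.s)) (.t))) (.mul (.mul (.c (-14)) (.P)) (.pow (.s) 2))) (.mul (.mul (.c 2) (.P)) (.w))) (.mul (.mul (.mul (.c 2) (.P)) (.w)) (.s))) (.mul (.mul (.mul (.c (-120)) (.T)) (.s)) (.pow (.u) 2))) (.mul (.mul (.mul (.c 240) (.T)) (.s)) (.pow (.t) 2))) (.mul (.mul (.mul (.c 10) (.T)) (.w)) (.s))) (.mul (.mul (.mul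 (.c 10) (.T)) (.w)) (.pow (.s) 2))),
    .c 0⟩

/-- free row column 15 -/
def rf15 : RFz := ⟨⟨0, 5, 3, [(1, 1)]⟩, [0, 0, 0, 0, 4699001571840, -4699358000640],
    .mul (.pow (.P) 2) (.add (.add (.add (.add (.add (.add (.add (.add (.add (.add (.mul (.mul (.mul (.c (-24)) (.P)) (.t)) (.pow (.u) 2)) (.mul (.mul (.c 48) (.P)) (.pow (.t) 3))) (.mul (.mul (.mul (.mul (.c 6) (.P)) (.s)) (.t)) (.v))) (.mul (.mul (.mul (.c 6) (.P)) (.s)) (.pow (.t) 2))) (.mul (.mul (.mul (.c (-54)) (.P)) (.pow (.s) 2)) (.t))) (.mul (.mul (.mul (.c 6) (.P)) (.w)) (.t))) (.mul (.mul (.mul (.mul (.c 6) (.P)) (.w)) (.s)) (.t))) (.mul (.mul (.mul (.mul (.c (-120)) (.T)) (.s)) (.t)) (.pow (.u) 2))) (.mul (.mul (.mul (.c 240) (.T)) (.s)) (.pow (.t) 3))) (.mul (.mul (.mul (.mul (.c 30) (.T)) (.w)) (.s)) (.t))) (.mul (.mul (.mul (.mul (.c 30) (.T)) (.w)) (.pow (.s) 2)) (.t))),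
    .c 0⟩

/-- free row column 16 -/
def rf16 : RFz := ⟨⟨0, 6, 4, [(1, 1)]⟩, [0, 0, 0, 0, 0, 37592012574720, -37594864005120],
    .mul (.P) (.add (.add (.add (.add (.add (.add (.add (.add (.add (.add (.add (.add (.add (.add (.add (.add (.add (.mul (.mul (.c (-24)) (.P)) (.pow (.u) 4)) (.mul (.mul (.mul (.c 24) (.P)) (.pow (.t) 2)) (.pow (.u) 2))) (.mul (.mul (.c 24) (.P)) (.pow (.t) 4))) (.mul (.mul (.mul (.mul (.c 8) (.P)) (.s)) (.pow (.u) 2)) (.v))) (.mul (.mul (.mul (.mul (.c 8) (.P)) (.s)) (.t)) (.pow (.u) 2))) (.mul (.mul (.mul (.c (-14)) (.P)) (.pow (.s) 2)) (.pow (.u) 2))) (.mul (.mul (.mul (.c (-132)) (.P)) (.pow (.s) 2)) (.pow (.t) 2))) (.mul (.mul (.mul (.c 2) (.P)) (.w)) (.pow (.u) 2))) (.mul (.mul (.mul (.c 12) (.P)) (.w)) (.pow (.t) 2))) (.mul (.mul (.mul (.mul (.c 2) (.P)) (.w)) (.s)) (.pow (.u) 2))) (.mul (.mul (.mul (.mul (.c 12) (.P)) (.w)) (.s)) (.pow (.t) 2))) (.mul (.mul (.mul (.c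 (-144)) (.T)) (.s)) (.pow (.u) 4))) (.mul (.mul (.mul (.mul (.c 144) (.T)) (.s)) (.pow (.t) 2)) (.pow (.u) 2))) (.mul (.mul (.mul (.c 144) (.T)) (.s)) (.pow (.t) 4))) (.mul (.mul (.mul (.mul (.c 12) (.T)) (.w)) (.s)) (.pow (.u) 2))) (.mul (.mul (.mul (.mul (.c 72) (.T)) (.w)) (.s)) (.pow (.t) 2))) (.mul (.mul (.mul (.mul (.c 12) (.T)) (.w)) (.pow (.s) 2)) (.pow (.u) 2))) (.mul (.mul (.mul (.mul (.c 72) (.T)) (.w)) (.pow (.s) 2)) (.pow (.t) 2))),
    .c 0⟩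

/-- free row column 17 -/
def rf17 : RFz := ⟨⟨0, 4, 0, [(2, 1)]⟩, [0, 0, 461100407040, -1066272443136, 605183917056],
    .mul (.mul (.s) (.pow (.P) 3)) (.add (.mul (.c (-48)) (.P)) (.mul (.mul (.c (-96)) (.T)) (.s))),
    .c 0⟩

/-- free row column 18 -/
def rf18 : RFz := ⟨⟨0, 5, 2, [(2, 1)]⟩, [0, 0, 0, 0, 18600214555200, -18601625419200],
    .mul (.mul (.s) (.pow (.P) 2)) (.add (.add (.add (.add (.add (.add (.add (.add (.add (.add (.mul (.mul (.c (-48)) (.P)) (.pow (.u) 2)) (.mul (.mul (.c 96) (.P)) (.pow (.t) 2))) (.mul (.mul (.mul (.c 4) (.P)) (.s)) (.v))) (.mul (.mul (.mul (.c 4) (.P)) (.s)) (.t))) (.mul (.mul (.c (-14)) (.P)) (.pow (.s) 2))) (.mul (.mul (.c 4) (.P)) (.w))) (.mul (.mul (.mul (.c 4) (.P)) (.w)) (.s))) (.mul (.mul (.mul (.c (-120)) (.T)) (.s)) (.pow (.u) 2))) (.mul (.mul (.mul (.c 240) (.T)) (.s)) (.pow (.t) 2))) (.mul (.mul (.mul (.c 10) (.T)) (.w)) (.s))) (.mul (.mul (.mul (.c 10)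 (.T)) (.w)) (.pow (.s) 2))),
    .c 0⟩

/-- free row column 19 -/
def rf19 : RFz := ⟨⟨0, 4, 0, [(3, 1)]⟩, [0, 0, 0, 195791732160, -195806583360],
    .mul (.mul (.pow (.s) 2) (.pow (.P) 3)) (.add (.mul (.c (-72)) (.P)) (.mul (.mul (.c (-96)) (.T)) (.s))),
    .c 0⟩

/-- free row column 20 -/
def rf20 : RFz := ⟨⟨1, 3, 0, [(0, 1)]⟩, [116650062720, -173390510304, 24104036864, 32634430560],
    .c 0,
    .c 0⟩

/-- free row column 21 -/
def rf21 : RFz := ⟨⟨1, 4, 0, [(0, 1)]⟩, [-167761222528, 300147679584, 28942513664, -287408953440, 126079982720],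
    .c 0,
    .c 0⟩

/-- free row column 22 -/
def rf22 : RFz := ⟨⟨1, 4, 1, [(0, 1)]⟩, [0, -3871835892480, 6897814882560, -1968644231616, -1057355550144],
    .mul (.pow (.P) 3) (.add (.add (.mul (.c (-192)) (.P)) (.mul (.mul (.c 96) (.T)) (.v))) (.mul (.mul (.c 96) (.T)) (.t))),
    .mul (.pow (.P) 3) (.mul (.c (-2)) (.P))⟩

/-- free row column 23 -/
def rf23 : RFz := ⟨⟨1, 5, 0, [(0, 1)]⟩, [-77583380352, 128017353600, 53256951552, -154124898048, 24326428800, 26107544448],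
    .c 0,
    .c 0⟩

/-- free row column 24 -/
def rf24 : RFz := ⟨⟨1, 5, 1, [(0, 1)]⟩, [0, 4633003445760, -9171882823680, 369176276736, 8254694541312, -4084991440128],
    .mul (.pow (.P) 2) (.add (.add (.mul (.c (-192)) (.P)) (.mul (.mul (.c 120) (.T)) (.v))) (.mul (.mul (.c 120) (.T)) (.t))),
    .mul (.pow (.P) 2) (.mul (.c (-2)) (.P))⟩

/-- free row column 25 -/
def rf25 : RFz := ⟨⟨1, 5, 3, [(0, 1)]⟩, [0, 0, 0, 6038304042240, -10879858545408, 4841471336448],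
    .mul (.pow (.P) 2) (.add (.add (.add (.add (.add (.add (.add (.add (.add (.add (.mul (.mul (.c (-6)) (.P)) (.pow (.v) 2)) (.mul (.mul (.c (-240)) (.P)) (.pow (.u) 2))) (.mul (.mul (.mul (.c (-12)) (.P)) (.t)) (.v))) (.mul (.mul (.c (-1446)) (.P)) (.pow (.t) 2))) (.mul (.mul (.mul (.c (-12)) (.P)) (.s)) (.v))) (.mul (.mul (.mul (.c (-12)) (.P)) (.s)) (.t))) (.mul (.mul (.c 6) (.P)) (.w))) (.mul (.mul (.mul (.c 6) (.P)) (.w)) (.s))) (.mul (.mul (.mul (.c 120) (.T)) (.pow (.u) 2)) (.v))) (.mul (.mul (.mul (.c 120) (.T)) (.t)) (.pow (.u) 2))) (.mul (.mul (.mul (.c (-720)) (.T)) (.s)) (.pow (.t) 2))),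
    .mul (.pow (.P) 2) (.mul (.mul (.c (-6)) (.P)) (.pow (.t) 2))⟩

/-- free row column 26 -/
def rf26 : RFz := ⟨⟨1, 6, 0, [(0, 1)]⟩, [128694540160, -254774522880, -131309097600, 509549045760, -123465425280, -254774522880, 126079982720],
    .c 0,
    .c 0⟩

/-- free row column 27 -/
def rf27 : RFz := ⟨⟨1, 6, 1, [(0, 1)]⟩, [0, 3871835892480, -6897814882560, -1629083235840, 7681041216000, -2242752656640, -783226333440],
    .mul (.P) (.add (.add (.mul (.c (-192)) (.P)) (.mul (.mul (.c 144) (.T)) (.v))) (.mul (.mul (.c 144) (.T)) (.t))),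
    .mul (.P) (.mul (.c (-2)) (.P))⟩

/-- free row column 28 -/
def rf28 : RFz := ⟨⟨1, 6, 3, [(0, 1)]⟩, [0, 0, 0, 43998750720, 2981683215360, -6158587299840, 3132905333760],
    .mul (.P) (.add (.add (.add (.add (.add (.add (.add (.add (.add (.add (.mul (.mul (.c (-6)) (.P)) (.pow (.v) 2)) (.mul (.mul (.c (-240)) (.P)) (.pow (.u) 2))) (.mul (.mul (.mul (.c (-12)) (.P)) (.t)) (.v))) (.mul (.mul (.c (-1446)) (.P)) (.pow (.t) 2))) (.mul (.mul (.mul (.c (-12)) (.P)) (.s)) (.v))) (.mul (.mul (.mul (.c (-12)) (.P)) (.s)) (.t))) (.mul (.mul (.c 6) (.P)) (.w))) (.mul (.mul (.mul (.c 6) (.P)) (.w)) (.s))) (.mul (.mul (.mul (.c 144) (.T)) (.pow (.u) 2)) (.v))) (.mul (.mul (.mul (.c 144) (.T)) (.t)) (.pow (.u) 2))) (.mul (.mul (.mul (.c (-864)) (.T)) (.s)) (.pow (.t) 2))),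
    .mul (.P) (.mul (.mul (.c (-6)) (.P)) (.pow (.t) 2))⟩

/-- free row column 29 -/
def rf29 : RFz := ⟨⟨1, 7, 1, [(0, 1)]⟩, [0, -4633003445760, 9171882823680, 4727127513600, -18343765647360, 4444755310080, 9171882823680, -4538879377920],
    .add (.add (.mul (.c (-192)) (.P)) (.mul (.mul (.c 168) (.T)) (.v))) (.mul (.mul (.c 168) (.T)) (.t)),
    .mul (.c (-2)) (.P)⟩

/-- free row column 30 -/
def rf30 : RFz := ⟨⟨1, 7, 3, [(0, 1)]⟩, [0, 0, 0, -18532013783040, 36687531294720, 376496271360, -36687531294720, 18155517511680],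
    .add (.add (.add (.add (.add (.add (.add (.add (.add (.add (.mul (.mul (.c (-6)) (.P)) (.pow (.v) 2)) (.mul (.mul (.c (-240)) (.P)) (.pow (.u) 2))) (.mul (.mul (.mul (.c (-12)) (.P)) (.t)) (.v))) (.mul (.mul (.c (-1446)) (.P)) (.pow (.t) 2))) (.mul (.mul (.mul (.c (-12)) (.P)) (.s)) (.v))) (.mul (.mul (.mul (.c (-12)) (.P)) (.s)) (.t))) (.mul (.mul (.c 6) (.P)) (.w))) (.mul (.mul (.mul (.c 6) (.P)) (.w)) (.s))) (.mul (.mul (.mul (.c 168) (.T)) (.pow (.u) 2)) (.v))) (.mul (.mul (.mul (.c 168) (.T)) (.t)) (.pow (.u) 2))) (.mul (.mul (.mul (.c (-1008)) (.T)) (.s)) (.pow (.t) 2)),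
    .mul (.mul (.c (-6)) (.P)) (.pow (.t) 2)⟩

/-- free row column 31 -/
def rf31 : RFz := ⟨⟨1, 3, 0, [(1, 1)]⟩, [0, -109482023200, 210346504416, -100863986176],
    .c 0,
    .c 0⟩

/-- free row column 32 -/
def rf32 : RFz := ⟨⟨1, 4, 1, [(1, 1)]⟩, [0, 0, 1522335106560, -4548135882240, 3025919585280],
    .mul (.pow (.P) 3) (.add (.add (.add (.add (.mul (.mul (.c 24) (.P)) (.v)) (.mul (.mul (.c 24) (.P)) (.t))) (.mul (.mul (.c (-192)) (.P)) (.s))) (.mul (.mul (.mul (.c 96) (.T)) (.s)) (.v))) (.mul (.mul (.mul (.c 96) (.T)) (.s)) (.t))),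
    .mul (.pow (.P) 3) (.mul (.mul (.c (-2)) (.P)) (.s))⟩

/-- free row column 33 -/
def rf33 : RFz := ⟨⟨1, 5, 3, [(1, 1)]⟩, [0, 0, 0, 0, 783166928640, -783226333440],
    .mul (.pow (.P) 2) (.add (.add (.add (.add (.add (.add (.add (.add (.add (.add (.add (.add (.mul (.mul (.mul (.c 24) (.P)) (.pow (.u) 2)) (.v)) (.mul (.mul (.mul (.c 24) (.P)) (.t)) (.pow (.u) 2))) (.mul (.mul (.mul (.c (-6)) (.P)) (.s)) (.pow (.v) 2))) (.mul (.mul (.mul (.c (-240)) (.P)) (.s)) (.pow (.u) 2))) (.mul (.mul (.mul (.mul (.c (-12)) (.P)) (.s)) (.t)) (.v))) (.mul (.mul (.mul (.c (-1590)) (.P)) (.s)) (.pow (.t) 2))) (.mul (.mul (.mul (.c (-12)) (.P)) (.pow (.s) 2)) (.v))) (.mul (.mul (.mul (.c (-12)) (.P)) (.pow (.s) 2)) (.t))) (.mul (.mul (.mul (.c 6) (.P)) (.w)) (.s))) (.mul (.mul (.mul (.c 6) (.P)) (.w)) (.pow (.s) 2))) (.mul (.mul (.mul (.mul (.c 120) (.T)) (.s)) (.pow (.u) 2)) (.v))) (.mul (.mul (.mul (.mul (.c 120) (.T))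 (.s)) (.t)) (.pow (.u) 2))) (.mul (.mul (.mul (.c (-720)) (.T)) (.pow (.s) 2)) (.pow (.t) 2))),
    .mul (.pow (.P) 2) (.mul (.mul (.mul (.c (-6)) (.P)) (.s)) (.pow (.t) 2))⟩

/-- free row column 34 -/
def rf34 : RFz := ⟨⟨1, 3, 0, [(2, 1)]⟩, [0, 0, -32631955360, 32634430560],
    .c 0,
    .c 0⟩

/-- free row column 35 -/
def rf35 : RFz := ⟨⟨1, 4, 1, [(2, 1)]⟩, [0, 0, 0, 1174750392960, -1174839500160],
    .mul (.mul (.s) (.pow (.P) 3)) (.add (.add (.add (.add (.mul (.mul (.c 48) (.P)) (.v)) (.mul (.mul (.c 48) (.P)) (.t))) (.mul (.mul (.c (-192)) (.P)) (.s))) (.mul (.mul (.mul (.c 96) (.T)) (.s)) (.v))) (.mul (.mul (.mul (.c 96) (.T)) (.s)) (.t))),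
    .mul (.mul (.s) (.pow (.P) 3)) (.mul (.mul (.c (-2)) (.P)) (.s))⟩

/-- free row column 36 -/
def rf36 : RFz := ⟨⟨3, 4, 0, [(0, 1)]⟩, [0, -313266771456, 313290533376, 391583464320, -391613166720],
    .mul (.pow (.P) 3) (.add (.mul (.c 168) (.P)) (.mul (.mul (.c 96) (.T)) (.s))),
    .c 0⟩

/-- free row column 37 -/
def rf37 : RFz := ⟨⟨3, 4, 1, [(0, 1)]⟩, [0, 0, 300067146240, -1207795497984, 907775875584],
    .mul (.pow (.P) 3) (.add (.mul (.mul (.c 192) (.P)) (.t)) (.mul (.mul (.mul (.c 96) (.T)) (.s)) (.t))),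
    .c 0⟩

/-- free row column 38 -/
def rf38 : RFz := ⟨⟨3, 5, 0, [(0, 1)]⟩, [0, 1857601253376, -3370584807936, -653508357120, 3982043662848, -1815551751168],
    .mul (.pow (.P) 2) (.add (.mul (.c 168) (.P)) (.mul (.mul (.c 120) (.T)) (.s))),
    .c 0⟩

/-- free row column 39 -/
def rf39 : RFz := ⟨⟨3, 5, 2, [(0, 1)]⟩, [0, 0, 0, 52466892451200, -112076872649856, 59610615830016],
    .mul (.pow (.P) 2) (.add (.add (.add (.add (.add (.add (.add (.add (.add (.add (.add (.add (.mul (.mul (.c 216) (.P)) (.pow (.u) 2)) (.mul (.mul (.mul (.c 18) (.P)) (.s)) (.v))) (.mul (.mul (.mul (.c 18) (.P)) (.s)) (.t))) (.mul (.mul (.c 14) (.P)) (.pow (.s) 2))) (.mul (.mul (.c (-4)) (.P)) (.w))) (.mul (.mul (.mul (.c (-4)) (.P)) (.w)) (.s))) (.mul (.mul (.mul (.c 120) (.T)) (.s)) (.pow (.u) 2))) (.mul (.mul (.mul (.c (-10)) (.T)) (.w)) (.v))) (.mul (.mul (.mul (.c (-10)) (.T)) (.w)) (.t))) (.mul (.mul (.mul (.c (-10)) (.T))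 (.w)) (.s))) (.mul (.mul (.mul (.mul (.c (-10)) (.T)) (.w)) (.s)) (.v))) (.mul (.mul (.mul (.mul (.c (-10)) (.T)) (.w)) (.s)) (.t))) (.mul (.mul (.mul (.c (-10)) (.T)) (.w)) (.pow (.s) 2))),
    .c 0⟩

/-- free row column 40 -/
def rf40 : RFz := ⟨⟨3, 5, 3, [(0, 1)]⟩, [0, 0, 0, 0, 3759201257472, -3759486400512],
    .mul (.pow (.P) 2) (.add (.add (.add (.add (.add (.add (.add (.add (.add (.add (.add (.add (.add (.add (.mul (.mul (.mul (.c 720) (.P)) (.t)) (.pow (.u) 2)) (.mul (.mul (.c (-480)) (.P)) (.pow (.t) 3))) (.mul (.mul (.mul (.mul (.c 60) (.P)) (.s)) (.t)) (.v))) (.mul (.mul (.mul (.c 60) (.P)) (.s)) (.pow (.t) 2))) (.mul (.mul (.mul (.c 54) (.P)) (.pow (.s) 2)) (.t))) (.mul (.mul (.mul (.c (-6)) (.P)) (.w)) (.t))) (.mul (.mul (.mul (.mul (.c (-6)) (.P)) (.w)) (.s)) (.t))) (.mul (.mul (.mul (.mul (.c 360) (.T)) (.s)) (.t)) (.pow (.u) 2))) (.mul (.mul (.mul (.c (-240)) (.T)) (.s)) (.pow (.t) 3)))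 (.mul (.mul (.mul (.mul (.c (-30)) (.T)) (.w)) (.t)) (.v))) (.mul (.mul (.mul (.c (-30)) (.T)) (.w)) (.pow (.t) 2))) (.mul (.mul (.mul (.mul (.c (-30)) (.T)) (.w)) (.s)) (.t))) (.mul (.mul (.mul (.mul (.mul (.c (-30)) (.T)) (.w)) (.s)) (.t)) (.v))) (.mul (.mul (.mul (.mul (.c (-30)) (.T)) (.w)) (.s)) (.pow (.t) 2))) (.mul (.mul (.mul (.mul (.c (-30)) (.T)) (.w)) (.pow (.s) 2)) (.t))),
    .c 0⟩

/-- free row column 41 -/
def rf41 : RFz := ⟨⟨3, 6, 0, [(0, 1)]⟩, [0, -1544334481920, 3057294274560, 31374689280, -3057294274560, 1512959792640],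
    .mul (.P) (.add (.mul (.c 168) (.P)) (.mul (.mul (.c 144) (.T)) (.s))),
    .c 0⟩

/-- free row column 42 -/
def rf42 : RFz := ⟨⟨3, 6, 2, [(0, 1)]⟩, [0, 0, 0, 131996252160, 8945049646080, -18475761899520, 9398716001280],
    .mul (.P) (.add (.add (.add (.add (.add (.add (.add (.add (.add (.add (.add (.add (.mul (.mul (.c 216) (.P)) (.pow (.u) 2)) (.mul (.mul (.mul (.c 18) (.P)) (.s)) (.v))) (.mul (.mul (.mul (.c 18) (.P)) (.s)) (.t))) (.mul (.mul (.c 14) (.P)) (.pow (.s) 2))) (.mul (.mul (.c (-4)) (.P)) (.w))) (.mul (.mul (.mul (.c (-4)) (.P)) (.w)) (.s))) (.mul (.mul (.mul (.c 144) (.T)) (.s)) (.pow (.u) 2))) (.mul (.mul (.mul (.c (-12)) (.T)) (.w)) (.v))) (.mul (.mul (.mul (.c (-12)) (.T)) (.w)) (.t))) (.mul (.mul (.mul (.c (-12)) (.T)) (.w)) (.s))) (.mul (.mul (.mul (.mul (.c (-12)) (.T)) (.w)) (.s)) (.v))) (.mul (.mul (.mul (.mul (.c (-12)) (.T)) (.w)) (.s)) (.t))) (.mul (.mul (.mul (.c (-12))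 (.T)) (.w)) (.pow (.s) 2))),
    .c 0⟩

/-- free row column 43 -/
def rf43 : RFz := ⟨⟨3, 6, 3, [(0, 1)]⟩, [0, 0, 0, 0, -18532013783040, 36687531294720, -18155517511680],
    .mul (.P) (.add (.add (.add (.add (.add (.add (.add (.add (.add (.add (.add (.add (.add (.add (.mul (.mul (.mul (.c 720) (.P)) (.t)) (.pow (.u) 2)) (.mul (.mul (.c (-480)) (.P)) (.pow (.t) 3))) (.mul (.mul (.mul (.mul (.c 60) (.P)) (.s)) (.t)) (.v))) (.mul (.mul (.mul (.c 60) (.P)) (.s)) (.pow (.t) 2))) (.mul (.mul (.mul (.c 54) (.P)) (.pow (.s) 2)) (.t))) (.mul (.mul (.mul (.c (-6)) (.P)) (.w)) (.t))) (.mul (.mul (.mul (.mul (.c (-6)) (.P)) (.w)) (.s)) (.t))) (.mul (.mul (.mul (.mul (.c 432) (.T)) (.s)) (.t)) (.pow (.u) 2))) (.mul (.mul (.mul (.c (-288)) (.T)) (.s)) (.pow (.t) 3))) (.mul (.mul (.mul (.mul (.c (-36)) (.T)) (.w)) (.t)) (.v))) (.mul (.mul (.mul (.c (-36)) (.T)) (.w)) (.pow (.t) 2))) (.mul (.mul (.mul (.mul (.c (-36))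 (.T)) (.w)) (.s)) (.t))) (.mul (.mul (.mul (.mul (.mul (.c (-36)) (.T)) (.w)) (.s)) (.t)) (.v))) (.mul (.mul (.mul (.mul (.c (-36)) (.T)) (.w)) (.s)) (.pow (.t) 2))) (.mul (.mul (.mul (.mul (.c (-36)) (.T)) (.w)) (.pow (.s) 2)) (.t))),
    .c 0⟩

/-- free row column 44 -/
def rf44 : RFz := ⟨⟨3, 6, 4, [(0, 1)]⟩, [0, 0, 0, 0, 0, 37592012574720, -37594864005120],
    .mul (.P) (.add (.add (.add (.add (.add (.add (.add (.add (.add (.add (.add (.add (.add (.add (.add (.add (.add (.add (.add (.add (.add (.add (.add (.add (.add (.mul (.mul (.c 264) (.P)) (.pow (.u) 4)) (.mul (.mul (.mul (.c 1320) (.P)) (.pow (.t) 2)) (.pow (.u) 2))) (.mul (.mul (.c (-1320)) (.P)) (.pow (.t) 4))) (.mul (.mul (.mul (.mul (.c 22) (.P)) (.s)) (.pow (.u) 2)) (.v))) (.mul (.mul (.mul (.mul (.c 22) (.P)) (.s)) (.t)) (.pow (.u) 2))) (.mul (.mul (.mul (.mul (.c 132) (.P)) (.s)) (.pow (.t) 2)) (.v))) (.mul (.mul (.mul (.c 132) (.P)) (.s))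 (.pow (.t) 3))) (.mul (.mul (.mul (.c 14) (.P)) (.pow (.s) 2)) (.pow (.u) 2))) (.mul (.mul (.mul (.c 132) (.P)) (.pow (.s) 2)) (.pow (.t) 2))) (.mul (.mul (.mul (.c (-8)) (.P)) (.w)) (.pow (.u) 2))) (.mul (.mul (.mul (.mul (.c (-8)) (.P)) (.w)) (.s)) (.pow (.u) 2))) (.mul (.mul (.mul (.c 144) (.T)) (.s)) (.pow (.u) 4))) (.mul (.mul (.mul (.mul (.c 720) (.T)) (.s)) (.pow (.t) 2)) (.pow (.u) 2))) (.mul (.mul (.mul (.c (-720)) (.T)) (.s)) (.pow (.t) 4))) (.mul (.mul (.mul (.mul (.c (-12)) (.T)) (.w)) (.pow (.u) 2)) (.v))) (.mul (.mul (.mul (.mul (.c (-12)) (.T)) (.w)) (.t)) (.pow (.u) 2))) (.mul (.mul (.mul (.mul (.c (-72)) (.T)) (.w)) (.pow (.t) 2)) (.v))) (.mul (.mul (.mul (.c (-72)) (.T)) (.w)) (.pow (.t) 3))) (.mul (.mul (.mul (.mul (.c (-12)) (.T)) (.w)) (.s)) (.pow (.u) 2))) (.mul (.mul (.mul (.mul (.mul (.c (-12)) (.T)) (.w)) (.s)) (.pow (.u) 2)) (.v))) (.mul (.mul (.mul (.mul (.mul (.c (-12)) (.T))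 (.w)) (.s)) (.t)) (.pow (.u) 2))) (.mul (.mul (.mul (.mul (.c (-72)) (.T)) (.w)) (.s)) (.pow (.t) 2))) (.mul (.mul (.mul (.mul (.mul (.c (-72)) (.T)) (.w)) (.s)) (.pow (.t) 2)) (.v))) (.mul (.mul (.mul (.mul (.c (-72)) (.T)) (.w)) (.s)) (.pow (.t) 3))) (.mul (.mul (.mul (.mul (.c (-12)) (.T)) (.w)) (.pow (.s) 2)) (.pow (.u) 2))) (.mul (.mul (.mul (.mul (.c (-72)) (.T)) (.w)) (.pow (.s) 2)) (.pow (.t) 2))),
    .c 0⟩

/-- free row column 45 -/
def rf45 : RFz := ⟨⟨3, 7, 2, [(0, 1)]⟩, [0, 0, 0, -55596041349120, 110062593884160, 1129488814080, -110062593884160, 54466552535040],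
    .add (.add (.add (.add (.add (.add (.add (.add (.add (.add (.add (.add (.mul (.mul (.c 216) (.P)) (.pow (.u) 2)) (.mul (.mul (.mul (.c 18) (.P)) (.s)) (.v))) (.mul (.mul (.mul (.c 18) (.P)) (.s)) (.t))) (.mul (.mul (.c 14) (.P)) (.pow (.s) 2))) (.mul (.mul (.c (-4)) (.P)) (.w))) (.mul (.mul (.mul (.c (-4)) (.P)) (.w)) (.s))) (.mul (.mul (.mul (.c 168) (.T)) (.s)) (.pow (.u) 2))) (.mul (.mul (.mul (.c (-14)) (.T)) (.w)) (.v))) (.mul (.mul (.mul (.c (-14)) (.T)) (.w)) (.t))) (.mul (.mul (.mul (.c (-14)) (.T)) (.w)) (.s))) (.mul (.mul (.mul (.mul (.c (-14)) (.T)) (.w)) (.s)) (.v))) (.mul (.mul (.mul (.mul (.c (-14)) (.T)) (.w)) (.s)) (.t))) (.mul (.mul (.mul (.c (-14)) (.T)) (.w)) (.pow (.s) 2)),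
    .c 0⟩

/-- free row column 46 -/
def rf46 : RFz := ⟨⟨3, 7, 4, [(0, 1)]⟩, [0, 0, 0, 0, 0, -222384165396480, 440250375536640, -217866210140160],
    .add (.add (.add (.add (.add (.add (.add (.add (.add (.add (.add (.add (.add (.add (.add (.add (.add (.add (.add (.add (.add (.add (.add (.add (.add (.mul (.mul (.c 264) (.P)) (.pow (.u) 4)) (.mul (.mul (.mul (.c 1320) (.P)) (.pow (.t) 2)) (.pow (.u) 2))) (.mul (.mul (.c (-1320)) (.P)) (.pow (.t) 4))) (.mul (.mul (.mul (.mul (.c 22) (.P)) (.s)) (.pow (.u) 2)) (.v))) (.mul (.mul (.mul (.mul (.c 22) (.P)) (.s)) (.t)) (.pow (.u) 2))) (.mul (.mul (.mul (.mul (.c 132) (.P)) (.s)) (.pow (.t) 2)) (.v))) (.mul (.mul (.mul (.c 132) (.P)) (.s)) (.pow (.t) 3))) (.mul (.mul (.mul (.c 14) (.P)) (.pow (.s) 2)) (.pow (.u) 2))) (.mul (.mul (.mul (.c 132) (.P)) (.pow (.s) 2)) (.pow (.t) 2))) (.mul (.mul (.mul (.c (-8)) (.P)) (.w)) (.pow (.u) 2))) (.mul (.mul (.mul (.mul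 (.c (-8)) (.P)) (.w)) (.s)) (.pow (.u) 2))) (.mul (.mul (.mul (.c 168) (.T)) (.s)) (.pow (.u) 4))) (.mul (.mul (.mul (.mul (.c 840) (.T)) (.s)) (.pow (.t) 2)) (.pow (.u) 2))) (.mul (.mul (.mul (.c (-840)) (.T)) (.s)) (.pow (.t) 4))) (.mul (.mul (.mul (.mul (.c (-14)) (.T)) (.w)) (.pow (.u) 2)) (.v))) (.mul (.mul (.mul (.mul (.c (-14)) (.T)) (.w)) (.t)) (.pow (.u) 2))) (.mul (.mul (.mul (.mul (.c (-84)) (.T)) (.w)) (.pow (.t) 2)) (.v))) (.mul (.mul (.mul (.c (-84)) (.T)) (.w)) (.pow (.t) 3))) (.mul (.mul (.mul (.mul (.c (-14)) (.T)) (.w)) (.s)) (.pow (.u) 2))) (.mul (.mul (.mul (.mul (.mul (.c (-14)) (.T)) (.w)) (.s)) (.pow (.u) 2)) (.v))) (.mul (.mul (.mul (.mul (.mul (.c (-14)) (.T)) (.w)) (.s)) (.t)) (.pow (.u) 2))) (.mul (.mul (.mul (.mul (.c (-84)) (.T)) (.w)) (.s)) (.pow (.t) 2))) (.mul (.mul (.mul (.mul (.mul (.c (-84)) (.T)) (.w)) (.s)) (.pow (.t) 2)) (.v))) (.mul (.mul (.mul (.mul (.c (-84)) (.T))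 (.w)) (.s)) (.pow (.t) 3))) (.mul (.mul (.mul (.mul (.c (-14)) (.T)) (.w)) (.pow (.s) 2)) (.pow (.u) 2))) (.mul (.mul (.mul (.mul (.c (-84)) (.T)) (.w)) (.pow (.s) 2)) (.pow (.t) 2)),
    .c 0⟩

/-- free row column 47 -/
def rf47 : RFz := ⟨⟨3, 4, 0, [(1, 1)]⟩, [0, 0, 1231067710464, -2744003741184, 1512959792640],
    .mul (.pow (.P) 3) (.add (.mul (.mul (.c 192) (.P)) (.s)) (.mul (.mul (.c 96) (.T)) (.pow (.s) 2))),
    .c 0⟩

/-- free row column 48 -/
def rf48 : RFz := ⟨⟨3, 4, 1, [(1, 1)]⟩, [0, 0, 0, 391583464320, -391613166720],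
    .mul (.pow (.P) 3) (.add (.mul (.mul (.mul (.c 216) (.P)) (.s)) (.t)) (.mul (.mul (.mul (.c 96) (.T)) (.pow (.s) 2)) (.t))),
    .c 0⟩

/-- free row column 49 -/
def rf49 : RFz := ⟨⟨3, 5, 2, [(1, 1)]⟩, [0, 0, 0, 0, 14018688022656, -14019751368576],
    .mul (.pow (.P) 2) (.add (.add (.add (.add (.add (.add (.add (.add (.add (.add (.add (.add (.add (.add (.add (.add (.mul (.mul (.mul (.c 240) (.P)) (.s)) (.pow (.u) 2)) (.mul (.mul (.mul (.c 18) (.P)) (.pow (.s) 2)) (.v))) (.mul (.mul (.mul (.c 18) (.P)) (.pow (.s) 2)) (.t))) (.mul (.mul (.c 14) (.P)) (.pow (.s) 3))) (.mul (.mul (.mul (.c (-2)) (.P)) (.w)) (.v))) (.mul (.mul (.mul (.c (-2)) (.P)) (.w)) (.t))) (.mul (.mul (.mul (.c (-6)) (.P)) (.w)) (.s))) (.mul (.mul (.mul (.mul (.c (-2)) (.P)) (.w)) (.s)) (.v))) (.mul (.mul (.mul (.mul (.c (-2)) (.P)) (.w)) (.s)) (.t))) (.mul (.mul (.mul (.c (-6)) (.P)) (.w)) (.pow (.s) 2))) (.mul (.mul (.mul (.c 120)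 (.T)) (.pow (.s) 2)) (.pow (.u) 2))) (.mul (.mul (.mul (.mul (.c (-10)) (.T)) (.w)) (.s)) (.v))) (.mul (.mul (.mul (.mul (.c (-10)) (.T)) (.w)) (.s)) (.t))) (.mul (.mul (.mul (.c (-10)) (.T)) (.w)) (.pow (.s) 2))) (.mul (.mul (.mul (.mul (.c (-10)) (.T)) (.w)) (.pow (.s) 2)) (.v))) (.mul (.mul (.mul (.mul (.c (-10)) (.T)) (.w)) (.pow (.s) 2)) (.t))) (.mul (.mul (.mul (.c (-10)) (.T)) (.w)) (.pow (.s) 3))),
    .c 0⟩

/-- free row column 50 -/
def rf50 : RFz := ⟨⟨3, 4, 0, [(2, 1)]⟩, [0, 0, 0, 469900157184, -469935800064],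
    .mul (.mul (.s) (.pow (.P) 3)) (.add (.mul (.mul (.c 216) (.P)) (.s)) (.mul (.mul (.c 96) (.T)) (.pow (.s) 2))),
    .c 0⟩

/-- the free value columns -/
def lf : List VFz := [vf0, vf1, vf2, vf3, vf4, vf5, vf6, vf7, vf8, vf9, vf10, vf11, vf12, vf13, vf14, vf15, vf16, vf17, vf18, vf19, vf20, vf21, vf22, vf23, vf24, vf25, vf26, vf27, vf28, vf29, vf30, vf31, vf32, vf33, vf34, vf35, vf36, vf37, vf38, vf39, vf40, vf41, vf42, vf43, vf44, vf45, vf46, vf47, vf48, vf49, vf50, vf51, vf52, vf53, vf54, vf55, vf56, vf57, vf58, vf59, vf60, vf61, vf62, vf63, vf64, vf65, vf66, vf67, vf68, vf69, vf70, vf71, vf72, vf73, vf74, vf75, vf76, vf77, vf78, vf79, vf80, vf81, vf82, vf83, vf84, vf85, vf86, vf87, vf88, vf89, vf90, vf91, vf92, vf93, vf94, vf95, vf96, vf97, vf98, vf99, vf100, vf101, vf102, vf103, vf104, vf105, vf106, vf107, vf108, vf109, vf110, vf111, vf112, vf113, vf114, vf115, vf116, vf117, vf118, vf119, vf120,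 vf121, vf122, vf123, vf124, vf125, vf126, vf127, vf128, vf129, vf130, vf131, vf132, vf133, vf134, vf135, vf136, vf137, vf138, vf139, vf140, vf141, vf142, vf143, vf144, vf145, vf146, vf147, vf148, vf149, vf150, vf151, vf152, vf153, vf154, vf155, vf156, vf157, vf158, vf159, vf160, vf161, vf162, vf163, vf164, vf165, vf166, vf167, vf168, vf169, vf170, vf171, vf172, vf173, vf174, vf175, vf176, vf177, vf178, vf179, vf180, vf181, vf182, vf183, vf184, vf185, vf186, vf187, vf188, vf189, vf190, vf191, vf192, vf193, vf194, vf195, vf196, vf197, vf198, vf199, vf200, vf201, vf202, vf203, vf204, vf205, vf206, vf207, vf208, vf209]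

/-- the free row columns -/
def rf : List RFz := [rf0, rf1, rf2, rf3, rf4, rf5, rf6, rf7, rf8, rf9, rf10, rf11, rf12, rf13, rf14, rf15, rf16, rf17, rf18, rf19, rf20, rf21, rf22, rf23, rf24, rf25, rf26, rf27, rf28, rf29, rf30, rf31, rf32, rf33, rf34, rf35, rf36, rf37, rf38, rf39, rf40, rf41, rf42, rf43, rf44, rf45, rf46, rf47, rf48, rf49, rf50]

/-- all columns -/
def cl : List Cz := clZ (VD dl c0 kB kF lb lf) (RD dl c0 kB kF rb rf)

set_option maxRecDepth 100000 in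
lemma ok_all : okD lb lf rb rf = true := by decide +kernel

set_option maxRecDepth 100000 in
/-- the errors -/
lemma err_ok : errZ 12 3 5 cl 1035825316 6905503 = true := by decide +kernel

end

end Vale.Agent.P224.S7.Z7
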